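import Mathlib

/-!
Truncated inclusion exclusion (Bonferroni inequalities) for weights in the unit interval.
-/

namespace Vale.Agent.Lib.P015

open Finset

/-- The alternating sum over subsets of cardinality at most `r`. -/
noncomputable def truncSum (S : Finset ℕ) (f : ℕ → ℝ) (r : ℕ) : ℝ :=
  ∑ I ∈ S.powerset, if I.card ≤ r then (-1 : ℝ) ^ I.card * ∏ p ∈ I, f p else 0

/-- The elementary symmetric sum of degree `r`. -/
noncomputable def esum (S : Finset ℕ) (f : ℕ → ℝ) (r : ℕ) : ℝ :=
  ∑ I ∈ S.powerset, if I.card = r then ∏ p ∈ I, f p else 0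

lemma truncSum_empty (f : ℕ → ℝ) (r : ℕ) : truncSum ∅ f r = 1 := by
  simp [truncSum]

lemma truncSum_zero (S : Finset ℕ) (f : ℕ → ℝ) : truncSum S f 0 = 1 := by
  unfold truncSum
  rw [Finset.sum_eq_single ∅]
  · simp
  · intro I _ hI
    have : I.card ≠ 0 := by
      simpa using hI
    simp [this]
  · intro h
    simp at h

lemma truncSum_insert_succ (S : Finset ℕ) (f : ℕ → ℝ) (r a : ℕ) (ha : a ∉ S) :
    truncSum (insert a S) f (r + 1) = truncSum S f (r + 1) - f a * truncSum S f r := by
  unfold truncSum
  rw [Finset.sum_powerset_insert ha, Finset.mul_sum, sub_eq_add_neg, ← Finset.sum_neg_distrib]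
  congr 1
  refine Finset.sum_congr rfl (fun I hI => ?_)
  have haI : a ∉ I := fun h => ha (Finset.mem_powerset.mp hI h)
  rw [Finset.card_insert_of_notMem haI, Finset.prod_insert haI]
  by_cases h : I.card ≤ r
  · rw [if_pos h, if_pos (by omega)]
    ring
  · rw [if_neg h, if_neg (by omega)]
    ring

lemma prod_one_sub_le_one (S : Finset ℕ) (f : ℕ → ℝ) (hf : ∀ p ∈ S, 0 ≤ f p ∧ f p ≤ 1) :
    ∏ p ∈ S, (1 - f p) ≤ 1 := by
  apply Finset.prod_le_one
  · intro p hp
    have := hf p hp
    linarith [this.2]
  · intro p hp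
    have := hf p hp
    linarith [this.1]

/-- The Bonferroni inequalities. -/
lemma bonferroni (S : Finset ℕ) (f : ℕ → ℝ) (hf : ∀ p ∈ S, 0 ≤ f p ∧ f p ≤ 1) :
    ∀ r : ℕ, 0 ≤ (-1 : ℝ) ^ r * (truncSum S f r - ∏ p ∈ S, (1 - f p)) := by
  induction S using Finset.induction_on with
  | empty =>
    intro r
    simp [truncSum_empty]
  | insert a S ha ih =>
    have hf' : ∀ p ∈ S, 0 ≤ f p ∧ f p ≤ 1 := fun p hp => hf p (Finset.mem_insert_of_mem hp)
    have ih' := ih hf'
    intro r
    cases r with
    | zero =>
      simp only [pow_zero, one_mul, truncSum_zero]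
      have := prod_one_sub_le_one _ f hf
      linarith
    | succ r =>
      rw [truncSum_insert_succ S f r a ha, Finset.prod_insert ha]
      have h1 := ih' (r + 1)
      have h2 := ih' r
      have hfa := (hf a (Finset.mem_insert_self a S)).1
      have h3 := mul_nonneg hfa h2
      have : (-1 : ℝ) ^ (r + 1) *
          (truncSum S f (r + 1) - f a * truncSum S f r - (1 - f a) * ∏ p ∈ S, (1 - f p)) =
          (-1 : ℝ) ^ (r + 1) * (truncSum S f (r + 1) - ∏ p ∈ S, (1 - f p)) +
          f a * ((-1 : ℝ) ^ r * (truncSum S f r - ∏ p ∈ S, (1 - f p))) := by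
        rw [pow_succ]
        ring
      rw [this]
      linarith

lemma truncSum_succ (S : Finset ℕ) (f : ℕ → ℝ) (r : ℕ) :
    truncSum S f (r + 1) = truncSum S f r + (-1 : ℝ) ^ (r + 1) * esum S f (r + 1) := by
  unfold truncSum esum
  rw [Finset.mul_sum, ← Finset.sum_add_distrib]
  refine Finset.sum_congr rfl (fun I _ => ?_)
  by_cases h : I.card ≤ r
  · have h1 : I.card ≤ r + 1 := by omega
    have h2 : I.card ≠ r + 1 := by omega
    simp [h, h1, h2]
  · by_cases h1 : I.card = r + 1
    · simp [h1]
    · have h2 : ¬ I.card ≤ r + 1 := by omega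
      simp [h, h1, h2]

lemma esum_le (S : Finset ℕ) (f : ℕ → ℝ) (hf : ∀ p ∈ S, 0 ≤ f p) (r : ℕ) (t : ℝ) (ht : 0 < t) :
    t ^ r * esum S f r ≤ Real.exp (t * ∑ p ∈ S, f p) := by
  have h1 : ∏ p ∈ S, (1 + t * f p) = ∑ I ∈ S.powerset, ∏ p ∈ I, (t * f p) :=
    Finset.prod_one_add S
  have h2 : t ^ r * esum S f r ≤ ∑ I ∈ S.powerset, ∏ p ∈ I, (t * f p) := by
    unfold esum
    rw [Finset.mul_sum]
    refine Finset.sum_le_sum (fun I hI => ?_)
    have hsub := Finset.mem_powerset.mp hI
    have hprodnn : 0 ≤ ∏ p ∈ I, (t * f p) :=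
      Finset.prod_nonneg (fun p hp => mul_nonneg ht.le (hf p (hsub hp)))
    split_ifs with h
    · rw [Finset.prod_mul_distrib, Finset.prod_const, h]
    · simpa using hprodnn
  calc t ^ r * esum S f r ≤ ∏ p ∈ S, (1 + t * f p) := by rw [h1]; exact h2
    _ ≤ ∏ p ∈ S, Real.exp (t * f p) := by
        apply Finset.prod_le_prod
        · intro p hp
          have := mul_nonneg ht.le (hf p hp)
          linarith
        · intro p _
          have := Real.add_one_le_exp (t * f p)
          linarith
    _ = Real.exp (t * ∑ p ∈ S, f p) := by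
        rw [← Real.exp_sum, Finset.mul_sum]

/-- Truncation at an even level overshoots the product by a controlled amount. -/
lemma truncSum_even_le (S : Finset ℕ) (f : ℕ → ℝ) (hf : ∀ p ∈ S, 0 ≤ f p ∧ f p ≤ 1)
    (ℓ : ℕ) (hℓ : Even ℓ) :
    truncSum S f ℓ ≤ ∏ p ∈ S, (1 - f p) +
      Real.exp (Real.exp 1 * (∑ p ∈ S, f p) - (ℓ + 1)) := by
  have hb := bonferroni S f hf (ℓ + 1)
  have hodd : (-1 : ℝ) ^ (ℓ + 1) = -1 := by
    rw [pow_succ, hℓ.neg_one_pow]
    ring
  rw [hodd] at hb
  have hs := truncSum_succ S f ℓ
  rw [hodd] at hs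
  have he := esum_le S f (fun p hp => (hf p hp).1) (ℓ + 1) (Real.exp 1) (Real.exp_pos 1)
  have hpow : (Real.exp 1) ^ (ℓ + 1) = Real.exp ((ℓ : ℝ) + 1) := by
    rw [← Real.exp_nat_mul]
    push_cast
    ring_nf
  rw [hpow] at he
  have he2 : esum S f (ℓ + 1) ≤ Real.exp (Real.exp 1 * (∑ p ∈ S, f p) - (ℓ + 1)) := by
    rw [Real.exp_sub]
    rw [le_div_iff₀ (Real.exp_pos _)]
    linarith
  linarith

/-- Number of subsets of cardinality at most `r`. -/
lemma card_subsets_le (S : Finset ℕ) (r : ℕ) :
    ((S.powerset.filter (fun I => I.card ≤ r)).card : ℝ) ≤ ((S.card : ℝ) + 1) ^ r := by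
  induction S using Finset.induction_on generalizing r with
  | empty =>
    simp only [Finset.powerset_empty, Finset.card_empty]
    have : (((({∅} : Finset (Finset ℕ))).filter (fun I => I.card ≤ r)).card : ℝ) ≤ 1 := by
      have := Finset.card_filter_le ({∅} : Finset (Finset ℕ)) (fun I => I.card ≤ r)
      simp only [Finset.card_singleton] at this
      exact_mod_cast this
    simpa using this
  | insert a S ha ih =>
    cases r with
    | zero =>
      have : (insert a S).powerset.filter (fun I => I.card ≤ 0) = {∅} := by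
        ext I
        simp only [Finset.mem_filter, Finset.mem_powerset, Finset.mem_singleton, Nat.le_zero,
          Finset.card_eq_zero]
        constructor
        · exact fun h => h.2
        · rintro rfl
          simp
      rw [this]
      simp
    | succ r =>
      rw [Finset.card_insert_of_notMem ha]
      have hsplit : (insert a S).powerset.filter (fun I => I.card ≤ r + 1) ⊆
          (S.powerset.filter (fun I => I.card ≤ r + 1)) ∪
          ((S.powerset.filter (fun I => I.card ≤ r)).image (insert a)) := by
        intro I hI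
        have hI' := Finset.mem_filter.mp hI
        have hsub := Finset.mem_powerset.mp hI'.1
        by_cases haI : a ∈ I
        · apply Finset.mem_union_right
          refine Finset.mem_image.mpr ⟨I.erase a, ?_, Finset.insert_erase haI⟩
          refine Finset.mem_filter.mpr ⟨Finset.mem_powerset.mpr ?_, ?_⟩
          · intro x hx
            have hx' := Finset.mem_erase.mp hx
            have := hsub hx'.2
            rcases Finset.mem_insert.mp this with h | h
            · exact absurd h hx'.1
            · exact h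
          · rw [Finset.card_erase_of_mem haI]
            omega
        · apply Finset.mem_union_left
          refine Finset.mem_filter.mpr ⟨Finset.mem_powerset.mpr ?_, hI'.2⟩
          intro x hx
          have := hsub hx
          rcases Finset.mem_insert.mp this with h | h
          · exact absurd (h ▸ hx) haI
          · exact h
      have hcard := Finset.card_le_card hsplit
      have hu := Finset.card_union_le (S.powerset.filter (fun I => I.card ≤ r + 1))
        ((S.powerset.filter (fun I => I.card ≤ r)).image (insert a))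
      have him := Finset.card_image_le (s := S.powerset.filter (fun I => I.card ≤ r))
        (f := insert a)
      have h1 := ih (r + 1)
      have h2 := ih r
      have hcast : (((insert a S).powerset.filter (fun I => I.card ≤ r + 1)).card : ℝ) ≤
          ((S.powerset.filter (fun I => I.card ≤ r + 1)).card : ℝ) +
          ((S.powerset.filter (fun I => I.card ≤ r)).card : ℝ) := by
        exact_mod_cast (hcard.trans hu).trans (Nat.add_le_add_left him _)
      refine hcast.trans ?_
      set n : ℝ := (S.card : ℝ) with hn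
      have hn0 : 0 ≤ n := Nat.cast_nonneg _
      push_cast
      have hpow : (n + 1) ^ r ≤ (n + 1 + 1) ^ r :=
        pow_le_pow_left₀ (by linarith) (by linarith) r
      have hpow0 : 0 ≤ (n + 1) ^ r := by positivity
      calc ((S.powerset.filter (fun I => I.card ≤ r + 1)).card : ℝ) +
            ((S.powerset.filter (fun I => I.card ≤ r)).card : ℝ)
          ≤ (n + 1) ^ (r + 1) + (n + 1) ^ r := add_le_add h1 h2
        _ = (n + 1 + 1) * (n + 1) ^ r := by rw [pow_succ]; ring
        _ ≤ (n + 1 + 1) * (n + 1 + 1) ^ r := by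
            apply mul_le_mul_of_nonneg_left hpow (by linarith)
        _ = (n + 1 + 1) ^ (r + 1) := by rw [pow_succ]; ring

end Vale.Agent.Lib.P015
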