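import Mathlib
import Vale.Agent.Lib.P015.Bonferroni

/-!
Counting lattice points of a box in residue classes modulo products of primes,
and the truncated sieve in two dimensions.
-/

namespace Vale.Agent.Lib.P015

open Finset

lemma class_count (I : Finset ℕ) (hI : ∀ p ∈ I, p.Prime) (w : ∀ p ∈ I, ZMod p) (A : ℤ) (L : ℕ) :
    |(((Ico A (A + L)).filter (fun a : ℤ => ∀ p (hp : p ∈ I), (a : ZMod p) = w p hp)).card : ℝ)
      - (L : ℝ) / (∏ p ∈ I, (p : ℝ))| ≤ 1 := by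
  classical
  -- the Chinese remainder solution
  set w' : ℕ → ℕ := fun p => if hp : p ∈ I then (w p hp).val else 0 with hw'
  have hs : ∀ p ∈ I, id p ≠ 0 := fun p hp => (hI p hp).ne_zero
  have pp : Set.Pairwise (I : Set ℕ) (Function.onFun Nat.Coprime id) := by
    intro p hp q hq hne
    exact (Nat.coprime_primes (hI p hp) (hI q hq)).mpr hne
  obtain ⟨k₀, hk₀⟩ := Nat.chineseRemainderOfFinset w' id I hs pp
  set d : ℕ := ∏ p ∈ I, p with hd
  have hdpos : 0 < d := Finset.prod_pos (fun p hp => (hI p hp).pos)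
  have hcond : ∀ a : ℤ, (∀ p (hp : p ∈ I), (a : ZMod p) = w p hp) ↔ a ≡ (k₀ : ℤ) [ZMOD (d : ℤ)] := by
    intro a
    have hk : ∀ p (hp : p ∈ I), ((k₀ : ℤ) : ZMod p) = w p hp := by
      intro p hp
      have : NeZero p := ⟨(hI p hp).ne_zero⟩
      have h1 := hk₀ p hp
      have h2 : ((k₀ : ℕ) : ZMod p) = ((w' p : ℕ) : ZMod p) :=
        (ZMod.natCast_eq_natCast_iff _ _ _).mpr h1
      simp only [Int.cast_natCast]
      rw [h2]
      simp only [hw', dif_pos hp]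
      exact ZMod.natCast_zmod_val _
    constructor
    · intro h
      have hdvd : ∀ p ∈ I, p ∣ (((k₀ : ℤ) - a).natAbs) := by
        intro p hp
        have h1 : (a : ZMod p) = ((k₀ : ℤ) : ZMod p) := by rw [h p hp, hk p hp]
        have h2 := (ZMod.intCast_eq_intCast_iff_dvd_sub _ _ _).mp h1
        exact Int.natCast_dvd.mp h2
      have h3 : d ∣ ((k₀ : ℤ) - a).natAbs :=
        Finset.prod_primes_dvd _ (fun p hp => (hI p hp).prime) hdvd
      exact Int.modEq_iff_dvd.mpr (Int.natCast_dvd.mpr h3)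
    · intro h p hp
      have h1 : (d : ℤ) ∣ ((k₀ : ℤ) - a) := Int.modEq_iff_dvd.mp h
      have h2 : (p : ℤ) ∣ (d : ℤ) := by
        exact_mod_cast Finset.dvd_prod_of_mem (fun q : ℕ => q) hp
      have h3 := h2.trans h1
      have h4 : (a : ZMod p) = ((k₀ : ℤ) : ZMod p) :=
        (ZMod.intCast_eq_intCast_iff_dvd_sub _ _ _).mpr h3
      rw [h4, hk p hp]
  have hfilter : (Ico A (A + L)).filter (fun a : ℤ => ∀ p (hp : p ∈ I), (a : ZMod p) = w p hp) =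
      (Ico A (A + L)).filter (fun a : ℤ => a ≡ (k₀ : ℤ) [ZMOD (d : ℤ)]) := by
    apply Finset.filter_congr
    intro a _
    exact hcond a
  rw [hfilter]
  have hdZ : (0 : ℤ) < (d : ℤ) := by exact_mod_cast hdpos
  have hcard := Int.Ico_filter_modEq_card A (A + L) hdZ (k₀ : ℤ)
  set c := ((Ico A (A + L)).filter (fun a : ℤ => a ≡ (k₀ : ℤ) [ZMOD (d : ℤ)])).card with hc
  set x : ℚ := ((A : ℚ) - (k₀ : ℤ)) / ((d : ℤ) : ℚ) with hx
  set y : ℚ := (((A + L : ℤ) : ℚ) - (k₀ : ℤ)) / ((d : ℤ) : ℚ) with hy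
  have hdQ : (0 : ℚ) < ((d : ℤ) : ℚ) := by exact_mod_cast hdpos
  have hyx : y - x = (L : ℚ) / (d : ℚ) := by
    rw [hx, hy]
    push_cast
    field_simp
    ring
  have hxy : x ≤ y := by
    have : (0 : ℚ) ≤ (L : ℚ) / (d : ℚ) := by positivity
    linarith
  have hceil : ⌈x⌉ ≤ ⌈y⌉ := Int.ceil_mono hxy
  have hmax : max (⌈y⌉ - ⌈x⌉) 0 = ⌈y⌉ - ⌈x⌉ := max_eq_left (by omega)
  rw [hmax] at hcard
  have hcQ : (c : ℚ) = (⌈y⌉ : ℚ) - (⌈x⌉ : ℚ) := by
    have : ((c : ℤ) : ℚ) = ((⌈y⌉ - ⌈x⌉ : ℤ) : ℚ) := by rw [hcard]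
    push_cast at this
    exact this
  have h1 := Int.le_ceil x
  have h2 := Int.ceil_lt_add_one x
  have h3 := Int.le_ceil y
  have h4 := Int.ceil_lt_add_one y
  have key : |(c : ℚ) - (L : ℚ) / (d : ℚ)| ≤ 1 := by
    rw [hcQ, ← hyx, abs_le]
    constructor <;> linarith
  have hprod : (∏ p ∈ I, (p : ℝ)) = (d : ℝ) := by
    rw [hd]
    push_cast
    rfl
  rw [hprod]
  have hfin : ((|(c : ℚ) - (L : ℚ) / (d : ℚ)| : ℚ) : ℝ) ≤ ((1 : ℚ) : ℝ) := by
    exact_mod_cast key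
  push_cast at hfin
  exact hfin

/-- An auxiliary estimate for products of counts. -/
lemma mul_count_aux (c₁ c₂ t : ℝ) (ht : 0 ≤ t) (h₁ : |c₁ - t| ≤ 1) (h₂ : |c₂ - t| ≤ 1) :
    |c₁ * c₂ - t ^ 2| ≤ 2 * t + 1 := by
  have e : c₁ * c₂ - t ^ 2 = (c₁ - t) * (c₂ - t) + t * (c₁ - t) + t * (c₂ - t) := by ring
  rw [e]
  have h3 : |(c₁ - t) * (c₂ - t)| ≤ 1 := by
    rw [abs_mul]
    calc |c₁ - t| * |c₂ - t| ≤ 1 * 1 := mul_le_mul h₁ h₂ (abs_nonneg _) (by norm_num)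
      _ = 1 := by norm_num
  have h4 : |t * (c₁ - t)| ≤ t := by
    rw [abs_mul, abs_of_nonneg ht]
    nlinarith [abs_nonneg (c₁ - t)]
  have h5 : |t * (c₂ - t)| ≤ t := by
    rw [abs_mul, abs_of_nonneg ht]
    nlinarith [abs_nonneg (c₂ - t)]
  calc |(c₁ - t) * (c₂ - t) + t * (c₁ - t) + t * (c₂ - t)|
      ≤ |(c₁ - t) * (c₂ - t) + t * (c₁ - t)| + |t * (c₂ - t)| := abs_add_le _ _
    _ ≤ |(c₁ - t) * (c₂ - t)| + |t * (c₁ - t)| + |t * (c₂ - t)| := by
        gcongr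
        exact abs_add_le _ _
    _ ≤ 2 * t + 1 := by linarith

lemma box_class_count (I : Finset ℕ) (hI : ∀ p ∈ I, p.Prime)
    (X : ∀ p : ℕ, Finset (ZMod p × ZMod p)) (A B : ℤ) (L : ℕ) :
    |(((Ico A (A + L) ×ˢ Ico B (B + L)).filter
        (fun z : ℤ × ℤ => ∀ p ∈ I, (((z.1 : ZMod p), (z.2 : ZMod p)) ∈ X p))).card : ℝ)
      - (L : ℝ) ^ 2 * ∏ p ∈ I, (((X p).card : ℝ) / (p : ℝ) ^ 2)|
    ≤ (∏ p ∈ I, ((X p).card : ℝ)) * (2 * (L : ℝ) / (∏ p ∈ I, (p : ℝ)) + 1) := by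
  classical
  set s := (Ico A (A + L) ×ˢ Ico B (B + L)).filter
    (fun z : ℤ × ℤ => ∀ p ∈ I, (((z.1 : ZMod p), (z.2 : ZMod p)) ∈ X p)) with hs
  set W := I.pi (fun p => X p) with hW
  let τ : ℤ × ℤ → (∀ p ∈ I, ZMod p × ZMod p) := fun z p _ => ((z.1 : ZMod p), (z.2 : ZMod p))
  have hτ : ∀ z ∈ s, τ z ∈ W := by
    intro z hz
    have hz' := (Finset.mem_filter.mp hz).2
    exact Finset.mem_pi.mpr (fun p hp => hz' p hp)
  have hfib := Finset.card_eq_sum_card_fiberwise (s := s) (t := W) (f := τ) hτ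
  set t : ℝ := (L : ℝ) / (∏ p ∈ I, (p : ℝ)) with ht
  have hdpos : 0 < ∏ p ∈ I, (p : ℝ) :=
    Finset.prod_pos (fun p hp => by exact_mod_cast (hI p hp).pos)
  have ht0 : 0 ≤ t := div_nonneg (Nat.cast_nonneg L) hdpos.le
  have hterm : ∀ b ∈ W, |(((s.filter (fun z => τ z = b)).card : ℕ) : ℝ) - t ^ 2| ≤ 2 * t + 1 := by
    intro b hb
    have hb' := Finset.mem_pi.mp hb
    set F₁ := (Ico A (A + L)).filter (fun a : ℤ => ∀ p (hp : p ∈ I), (a : ZMod p) = (b p hp).1)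
      with hF₁
    set F₂ := (Ico B (B + L)).filter (fun a : ℤ => ∀ p (hp : p ∈ I), (a : ZMod p) = (b p hp).2)
      with hF₂
    have hset : s.filter (fun z => τ z = b) = F₁ ×ˢ F₂ := by
      ext z
      simp only [Finset.mem_filter, Finset.mem_product, hs, hF₁, hF₂]
      constructor
      · rintro ⟨⟨⟨h1, h2⟩, _⟩, h4⟩
        refine ⟨⟨h1, fun p hp => ?_⟩, ⟨h2, fun p hp => ?_⟩⟩
        · have := congrFun (congrFun h4 p) hp
          rw [← this]
        · have := congrFun (congrFun h4 p) hp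
          rw [← this]
      · rintro ⟨⟨h1, h2⟩, ⟨h3, h4⟩⟩
        have hτb : τ z = b := by
          funext p hp
          exact Prod.ext (h2 p hp) (h4 p hp)
        refine ⟨⟨⟨h1, h3⟩, fun p hp => ?_⟩, hτb⟩
        have : (((z.1 : ZMod p), (z.2 : ZMod p))) = b p hp := congrFun (congrFun hτb p) hp
        rw [this]
        exact hb' p hp
    rw [hset, Finset.card_product]
    push_cast
    exact mul_count_aux _ _ t ht0 (class_count I hI _ A L) (class_count I hI _ B L)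
  have hWcard : (W.card : ℝ) = ∏ p ∈ I, ((X p).card : ℝ) := by
    rw [hW, Finset.card_pi]
    push_cast
    rfl
  have hmain : (L : ℝ) ^ 2 * ∏ p ∈ I, (((X p).card : ℝ) / (p : ℝ) ^ 2) = (W.card : ℝ) * t ^ 2 := by
    rw [hWcard, Finset.prod_div_distrib, Finset.prod_pow, ht, div_pow]
    ring
  rw [hmain, hWcard.symm]
  have hrew : (2 * (L : ℝ) / (∏ p ∈ I, (p : ℝ)) + 1) = 2 * t + 1 := by
    rw [ht]
    ring
  rw [hrew, hfib]
  push_cast
  have : (∑ b ∈ W, (((s.filter (fun z => τ z = b)).card : ℕ) : ℝ)) - (W.card : ℝ) * t ^ 2 =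
      ∑ b ∈ W, ((((s.filter (fun z => τ z = b)).card : ℕ) : ℝ) - t ^ 2) := by
    rw [Finset.sum_sub_distrib]
    simp
  rw [this]
  calc |∑ b ∈ W, ((((s.filter (fun z => τ z = b)).card : ℕ) : ℝ) - t ^ 2)|
      ≤ ∑ b ∈ W, |((((s.filter (fun z => τ z = b)).card : ℕ) : ℝ) - t ^ 2)| :=
        Finset.abs_sum_le_sum_abs _ _
    _ ≤ ∑ b ∈ W, (2 * t + 1) := Finset.sum_le_sum hterm
    _ = (W.card : ℝ) * (2 * t + 1) := by
        rw [Finset.sum_const, nsmul_eq_mul]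

/-- The truncated sieve in two dimensions. -/
theorem brun_count (S : Finset ℕ) (hS : ∀ p ∈ S, p.Prime)
    (X : ∀ p : ℕ, Finset (ZMod p × ZMod p)) (A B : ℤ) (L ℓ : ℕ) (hℓ : Even ℓ) :
    (((Ico A (A + L) ×ˢ Ico B (B + L)).filter
        (fun z : ℤ × ℤ => ∀ p ∈ S, (((z.1 : ZMod p), (z.2 : ZMod p)) ∉ X p))).card : ℝ)
    ≤ (L : ℝ) ^ 2 * truncSum S (fun p => ((X p).card : ℝ) / (p : ℝ) ^ 2) ℓ +
      ∑ I ∈ S.powerset.filter (fun I => I.card ≤ ℓ),
        (∏ p ∈ I, ((X p).card : ℝ)) * (2 * (L : ℝ) / (∏ p ∈ I, (p : ℝ)) + 1) := by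
  classical
  set Box := Ico A (A + L) ×ˢ Ico B (B + L) with hBox
  let f : ℤ × ℤ → ℕ → ℝ := fun z p =>
    if ((z.1 : ZMod p), (z.2 : ZMod p)) ∈ X p then 1 else 0
  have hf01 : ∀ z, ∀ p ∈ S, 0 ≤ f z p ∧ f z p ≤ 1 := by
    intro z p _
    simp only [f]
    split_ifs <;> norm_num
  have hpoint : ∀ z ∈ Box,
      (if (∀ p ∈ S, (((z.1 : ZMod p), (z.2 : ZMod p)) ∉ X p)) then (1 : ℝ) else 0) ≤
      truncSum S (f z) ℓ := by
    intro z _
    have hb := bonferroni S (f z) (hf01 z) ℓ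
    rw [hℓ.neg_one_pow, one_mul] at hb
    have hprod : ∏ p ∈ S, (1 - f z p) =
        (if (∀ p ∈ S, (((z.1 : ZMod p), (z.2 : ZMod p)) ∉ X p)) then (1 : ℝ) else 0) := by
      have h1 : ∀ p ∈ S, 1 - f z p =
          (if ((z.1 : ZMod p), (z.2 : ZMod p)) ∉ X p then (1 : ℝ) else 0) := by
        intro p _
        simp only [f]
        by_cases h : ((z.1 : ZMod p), (z.2 : ZMod p)) ∈ X p <;> simp [h]
      rw [Finset.prod_congr rfl h1, Finset.prod_ite_zero]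
      simp
    rw [← hprod]
    linarith
  rw [Finset.natCast_card_filter]
  have hsum1 := Finset.sum_le_sum hpoint
  refine hsum1.trans ?_
  -- exchange the order of summation
  have hexch : ∑ z ∈ Box, truncSum S (f z) ℓ =
      ∑ I ∈ S.powerset, if I.card ≤ ℓ then
        (-1 : ℝ) ^ I.card * (((Box.filter
          (fun z : ℤ × ℤ => ∀ p ∈ I, (((z.1 : ZMod p), (z.2 : ZMod p)) ∈ X p))).card : ℕ) : ℝ)
        else 0 := by
    unfold truncSum
    rw [Finset.sum_comm]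
    refine Finset.sum_congr rfl (fun I _ => ?_)
    by_cases h : I.card ≤ ℓ
    · simp only [if_pos h]
      rw [← Finset.mul_sum, Finset.natCast_card_filter]
      congr 1
      refine Finset.sum_congr rfl (fun z _ => ?_)
      simp only [f]
      rw [Finset.prod_ite_zero]
      simp
    · simp [h]
  rw [hexch]
  unfold truncSum
  rw [Finset.mul_sum, Finset.sum_filter, ← Finset.sum_add_distrib]
  refine Finset.sum_le_sum (fun I hI => ?_)
  have hIS : ∀ p ∈ I, p.Prime := fun p hp => hS p (Finset.mem_powerset.mp hI hp)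
  have hbc := box_class_count I hIS X A B L
  by_cases h : I.card ≤ ℓ
  · simp only [if_pos h]
    rw [← hBox] at hbc
    set N : ℝ := (((Box.filter
      (fun z : ℤ × ℤ => ∀ p ∈ I, (((z.1 : ZMod p), (z.2 : ZMod p)) ∈ X p))).card : ℕ) : ℝ) with hN
    set M : ℝ := ∏ p ∈ I, (((X p).card : ℝ) / (p : ℝ) ^ 2) with hM
    set E : ℝ := (∏ p ∈ I, ((X p).card : ℝ)) * (2 * (L : ℝ) / (∏ p ∈ I, (p : ℝ)) + 1) with hE
    have hb := abs_le.mp hbc
    rcases neg_one_pow_eq_or ℝ I.card with hs | hs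
    · rw [hs]
      nlinarith [hb.1, hb.2]
    · rw [hs]
      nlinarith [hb.1, hb.2]
  · simp [h]

end Vale.Agent.Lib.P015
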