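import Mathlib
import Vale.Agent.Lib.P015.BoxCount

/-!
The local density at a prime congruent to 1 modulo 4, and the resulting sieve bound for the
number of lattice points that stay coprime to all sifting primes along a shape.
-/

namespace Vale.Agent.Lib.P015

open Finset

/-- The classes modulo `p` for which some translate by an element of `O` has norm zero. -/
noncomputable def badSet (O : Finset (ℤ × ℤ)) (p : ℕ) : Finset (ZMod p × ZMod p) := by
  classical
  exact if h : p ≠ 0 then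
    haveI : NeZero p := ⟨h⟩
    Finset.univ.filter (fun x : ZMod p × ZMod p =>
      ∃ o ∈ O, (x.1 + (o.1 : ZMod p)) ^ 2 + (x.2 + (o.2 : ZMod p)) ^ 2 = 0)
  else ∅

lemma mem_badSet (O : Finset (ℤ × ℤ)) (p : ℕ) (hp : p ≠ 0) (x : ZMod p × ZMod p) :
    x ∈ badSet O p ↔ ∃ o ∈ O, (x.1 + (o.1 : ZMod p)) ^ 2 + (x.2 + (o.2 : ZMod p)) ^ 2 = 0 := by
  classical
  have : NeZero p := ⟨hp⟩
  unfold badSet
  simp only [dif_pos hp, Finset.mem_filter, Finset.mem_univ, true_and]

/-- If the differences of `O` have small nonzero norm, then exactly `(p - |O|)^2` classes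
modulo `p` stay alive. -/
lemma card_alive (p : ℕ) [hpp : Fact p.Prime] (hp4 : p % 4 = 1) (O : Finset (ℤ × ℤ))
    (hO : ∀ o ∈ O, ∀ o' ∈ O, o ≠ o' →
      (o.1 - o'.1) ^ 2 + (o.2 - o'.2) ^ 2 < (p : ℤ)) :
    O.card ≤ p ∧
    ((Finset.univ : Finset (ZMod p × ZMod p)).filter (fun x =>
      ¬ ∃ o ∈ O, (x.1 + (o.1 : ZMod p)) ^ 2 + (x.2 + (o.2 : ZMod p)) ^ 2 = 0)).card
      = (p - O.card) ^ 2 := by
  classical
  have hp := hpp.out
  have hsq : IsSquare (-1 : ZMod p) := by
    rw [ZMod.exists_sq_eq_neg_one_iff]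
    omega
  obtain ⟨r, hr⟩ := hsq
  have hr2 : r * r = -1 := hr.symm
  have hpodd : p ≠ 2 := by
    intro h
    subst h
    omega
  have h2ne : (2 : ZMod p) ≠ 0 := by
    have := ZMod.natCast_eq_zero_iff 2 p
    intro h
    have h' : ((2 : ℕ) : ZMod p) = 0 := by simpa using h
    have := this.mp h'
    have := (Nat.prime_dvd_prime_iff_eq hp Nat.prime_two).mp this
    exact hpodd this
  have hrne : r ≠ 0 := by
    intro h
    rw [h] at hr2
    simp at hr2
  -- vanishing of the norm of a small nonzero vector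
  have hsmall : ∀ o ∈ O, ∀ o' ∈ O, o ≠ o' →
      (((o.1 - o'.1 : ℤ) : ZMod p)) ^ 2 + (((o.2 - o'.2 : ℤ) : ZMod p)) ^ 2 ≠ 0 := by
    intro o ho o' ho' hne h0
    have hcast : (((o.1 - o'.1) ^ 2 + (o.2 - o'.2) ^ 2 : ℤ) : ZMod p) = 0 := by
      push_cast
      push_cast at h0
      exact h0
    have hdvd : (p : ℤ) ∣ (o.1 - o'.1) ^ 2 + (o.2 - o'.2) ^ 2 :=
      (ZMod.intCast_zmod_eq_zero_iff_dvd _ _).mp hcast
    have hpos : 0 < (o.1 - o'.1) ^ 2 + (o.2 - o'.2) ^ 2 := by
      by_contra hneg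
      have h1 : (o.1 - o'.1) ^ 2 = 0 := by nlinarith [sq_nonneg (o.1 - o'.1), sq_nonneg (o.2 - o'.2)]
      have h2 : (o.2 - o'.2) ^ 2 = 0 := by nlinarith [sq_nonneg (o.1 - o'.1), sq_nonneg (o.2 - o'.2)]
      have h3 : o.1 = o'.1 := by
        have := pow_eq_zero_iff (n := 2) (by norm_num) |>.mp h1
        omega
      have h4 : o.2 = o'.2 := by
        have := pow_eq_zero_iff (n := 2) (by norm_num) |>.mp h2
        omega
      exact hne (Prod.ext h3 h4)
    have := Int.le_of_dvd hpos hdvd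
    have := hO o ho o' ho' hne
    omega
  let α : ℤ × ℤ → ZMod p := fun o => (o.1 : ZMod p) + r * (o.2 : ZMod p)
  let β : ℤ × ℤ → ZMod p := fun o => (o.1 : ZMod p) - r * (o.2 : ZMod p)
  have hαinj : Set.InjOn (fun o => - α o) (O : Set (ℤ × ℤ)) := by
    intro o ho o' ho' h
    by_contra hne
    apply hsmall o ho o' ho' hne
    simp only [α] at h
    have h1 : ((o.1 : ZMod p) - o'.1) = - r * ((o.2 : ZMod p) - o'.2) := by
      linear_combination -h
    push_cast
    rw [h1]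
    linear_combination (((o.2 : ZMod p) - o'.2) ^ 2) * hr2
  have hβinj : Set.InjOn (fun o => - β o) (O : Set (ℤ × ℤ)) := by
    intro o ho o' ho' h
    by_contra hne
    apply hsmall o ho o' ho' hne
    simp only [β] at h
    have h1 : ((o.1 : ZMod p) - o'.1) = r * ((o.2 : ZMod p) - o'.2) := by
      linear_combination -h
    push_cast
    rw [h1]
    linear_combination (((o.2 : ZMod p) - o'.2) ^ 2) * hr2
  set A := O.image (fun o => - α o) with hA
  set B := O.image (fun o => - β o) with hB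
  have hAcard : A.card = O.card := Finset.card_image_of_injOn hαinj
  have hBcard : B.card = O.card := Finset.card_image_of_injOn hβinj
  have hOp : O.card ≤ p := by
    rw [← hAcard]
    have := Finset.card_le_univ A
    rwa [ZMod.card] at this
  refine ⟨hOp, ?_⟩
  let θ : ZMod p × ZMod p → ZMod p × ZMod p := fun x => (x.1 + r * x.2, x.1 - r * x.2)
  have hθinj : Function.Injective θ := by
    intro x y hxy
    have h1 : x.1 + r * x.2 = y.1 + r * y.2 := congrArg Prod.fst hxy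
    have h2 : x.1 - r * x.2 = y.1 - r * y.2 := congrArg Prod.snd hxy
    have h3 : 2 * (x.1 - y.1) = 0 := by linear_combination h1 + h2
    have h4 : (2 * r) * (x.2 - y.2) = 0 := by linear_combination h1 - h2
    have h5 : x.1 = y.1 := by
      have := (mul_eq_zero.mp h3).resolve_left h2ne
      exact sub_eq_zero.mp this
    have h6 : x.2 = y.2 := by
      have := (mul_eq_zero.mp h4).resolve_left (mul_ne_zero h2ne hrne)
      exact sub_eq_zero.mp this
    exact Prod.ext h5 h6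
  have hθsurj : Function.Surjective θ := Finite.injective_iff_surjective.mp hθinj
  have hfactor : ∀ (x : ZMod p × ZMod p) (o : ℤ × ℤ),
      (x.1 + (o.1 : ZMod p)) ^ 2 + (x.2 + (o.2 : ZMod p)) ^ 2 =
      ((θ x).1 + α o) * ((θ x).2 + β o) := by
    intro x o
    simp only [θ, α, β]
    linear_combination ((x.2 + (o.2 : ZMod p)) ^ 2) * hr2
  have hiff : ∀ x : ZMod p × ZMod p,
      (¬ ∃ o ∈ O, (x.1 + (o.1 : ZMod p)) ^ 2 + (x.2 + (o.2 : ZMod p)) ^ 2 = 0) ↔
      (θ x).1 ∉ A ∧ (θ x).2 ∉ B := by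
    intro x
    constructor
    · intro h
      constructor
      · intro hmem
        obtain ⟨o, ho, he⟩ := Finset.mem_image.mp hmem
        apply h
        refine ⟨o, ho, ?_⟩
        rw [hfactor, ← he]
        ring
      · intro hmem
        obtain ⟨o, ho, he⟩ := Finset.mem_image.mp hmem
        apply h
        refine ⟨o, ho, ?_⟩
        rw [hfactor, ← he]
        ring
    · rintro ⟨h1, h2⟩ ⟨o, ho, he⟩
      rw [hfactor] at he
      rcases mul_eq_zero.mp he with h3 | h3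
      · apply h1
        refine Finset.mem_image.mpr ⟨o, ho, ?_⟩
        linear_combination -h3
      · apply h2
        refine Finset.mem_image.mpr ⟨o, ho, ?_⟩
        linear_combination -h3
  set alive := (Finset.univ : Finset (ZMod p × ZMod p)).filter (fun x =>
      ¬ ∃ o ∈ O, (x.1 + (o.1 : ZMod p)) ^ 2 + (x.2 + (o.2 : ZMod p)) ^ 2 = 0) with halive
  have himage : alive.image θ = Aᶜ ×ˢ Bᶜ := by
    ext y
    simp only [Finset.mem_image, Finset.mem_product, Finset.mem_compl, halive, Finset.mem_filter,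
      Finset.mem_univ, true_and]
    constructor
    · rintro ⟨x, hx, rfl⟩
      exact (hiff x).mp hx
    · intro hy
      obtain ⟨x, rfl⟩ := hθsurj y
      exact ⟨x, (hiff x).mpr hy, rfl⟩
  have hcard : alive.card = (alive.image θ).card :=
    (Finset.card_image_of_injective _ hθinj).symm
  rw [hcard, himage, Finset.card_product, Finset.card_compl, Finset.card_compl, hAcard, hBcard,
    ZMod.card]
  ring

/-- The cardinality of the bad set, in real form. -/
lemma card_badSet_real (p : ℕ) (hp : p.Prime) (hp4 : p % 4 = 1) (O : Finset (ℤ × ℤ))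
    (hO : ∀ o ∈ O, ∀ o' ∈ O, o ≠ o' →
      (o.1 - o'.1) ^ 2 + (o.2 - o'.2) ^ 2 < (p : ℤ)) :
    ((badSet O p).card : ℝ) = (p : ℝ) ^ 2 - ((p : ℝ) - O.card) ^ 2 ∧ (O.card : ℝ) ≤ p := by
  classical
  have : Fact p.Prime := ⟨hp⟩
  have : NeZero p := ⟨hp.ne_zero⟩
  obtain ⟨hle, hcard⟩ := card_alive p hp4 O hO
  have hsplit : (badSet O p).card +
      ((Finset.univ : Finset (ZMod p × ZMod p)).filter (fun x =>
      ¬ ∃ o ∈ O, (x.1 + (o.1 : ZMod p)) ^ 2 + (x.2 + (o.2 : ZMod p)) ^ 2 = 0)).card = p ^ 2 := by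
    have hb : badSet O p = (Finset.univ : Finset (ZMod p × ZMod p)).filter (fun x =>
        ∃ o ∈ O, (x.1 + (o.1 : ZMod p)) ^ 2 + (x.2 + (o.2 : ZMod p)) ^ 2 = 0) := by
      ext x
      rw [mem_badSet O p hp.ne_zero]
      simp
    rw [hb, Finset.card_filter_add_card_filter_not]
    rw [Finset.card_univ, Fintype.card_prod, ZMod.card]
    ring
  rw [hcard] at hsplit
  have hcast : ((badSet O p).card : ℝ) + (((p - O.card : ℕ) : ℝ)) ^ 2 = (p : ℝ) ^ 2 := by
    exact_mod_cast hsplit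
  rw [Nat.cast_sub hle] at hcast
  refine ⟨by linarith, by exact_mod_cast hle⟩

/-- The reciprocal sum over a finite set of natural numbers. -/
noncomputable def recipSum (S : Finset ℕ) : ℝ := ∑ p ∈ S, (1 : ℝ) / p

/-- The sieve bound for a shape `O`. -/
theorem alive_count (S : Finset ℕ) (z k : ℕ) (hz1 : 1 ≤ z)
    (hS : ∀ p ∈ S, p.Prime ∧ p % 4 = 1 ∧ p ≤ z) (O : Finset (ℤ × ℤ)) (hOk : O.card = k + 1)
    (hO : ∀ p ∈ S, ∀ o ∈ O, ∀ o' ∈ O, o ≠ o' →
      (o.1 - o'.1) ^ 2 + (o.2 - o'.2) ^ 2 < (p : ℤ))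
    (A B : ℤ) (L ℓ : ℕ) (hℓ : Even ℓ) :
    (((Ico A (A + L) ×ˢ Ico B (B + L)).filter
        (fun w : ℤ × ℤ => ∀ p ∈ S, ∀ o ∈ O,
          (((w.1 + o.1 : ℤ) : ZMod p)) ^ 2 + (((w.2 + o.2 : ℤ) : ZMod p)) ^ 2 ≠ 0)).card : ℝ)
    ≤ (L : ℝ) ^ 2 * (Real.exp (-(2 * ((k : ℝ) + 1) * recipSum S)) +
        Real.exp (Real.exp 1 * (2 * ((k : ℝ) + 1) * recipSum S) - (ℓ + 1))) +
      ((z : ℝ) + 1) ^ ℓ * (2 * ((k : ℝ) + 1)) ^ ℓ * (2 * (L : ℝ) + (z : ℝ) ^ ℓ) := by
  classical
  have hpos : ∀ p ∈ S, (0 : ℝ) < p := fun p hp => by exact_mod_cast (hS p hp).1.pos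
  have hbad := fun p (hp : p ∈ S) => card_badSet_real p (hS p hp).1 (hS p hp).2.1 O (hO p hp)
  set X := badSet O with hX
  set g : ℕ → ℝ := fun p => ((X p).card : ℝ) / (p : ℝ) ^ 2 with hg
  have hk0 : (0 : ℝ) ≤ (k : ℝ) + 1 := by positivity
  have hgform : ∀ p ∈ S, g p = 1 - (1 - ((k : ℝ) + 1) / p) ^ 2 := by
    intro p hp
    have hp0 := (hpos p hp).ne'
    simp only [hg]
    rw [(hbad p hp).1, hOk]
    push_cast
    field_simp
  have hk_le : ∀ p ∈ S, ((k : ℝ) + 1) / p ≤ 1 := by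
    intro p hp
    have := (hbad p hp).2
    rw [hOk] at this
    push_cast at this
    rw [div_le_one (hpos p hp)]
    exact this
  have hk_nn : ∀ p ∈ S, 0 ≤ ((k : ℝ) + 1) / p := fun p hp => div_nonneg hk0 (hpos p hp).le
  have hg01 : ∀ p ∈ S, 0 ≤ g p ∧ g p ≤ 1 := by
    intro p hp
    rw [hgform p hp]
    have h1 := hk_le p hp
    have h2 := hk_nn p hp
    constructor
    · nlinarith
    · nlinarith [sq_nonneg (1 - ((k : ℝ) + 1) / p)]
  have hgle : ∀ p ∈ S, g p ≤ 2 * ((k : ℝ) + 1) * ((1 : ℝ) / p) := by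
    intro p hp
    rw [hgform p hp]
    have h2 := hk_nn p hp
    have : 2 * ((k : ℝ) + 1) * ((1 : ℝ) / p) = 2 * (((k : ℝ) + 1) / p) := by ring
    rw [this]
    nlinarith [sq_nonneg (((k : ℝ) + 1) / p)]
  have hsumg : ∑ p ∈ S, g p ≤ 2 * ((k : ℝ) + 1) * recipSum S := by
    unfold recipSum
    rw [Finset.mul_sum]
    exact Finset.sum_le_sum hgle
  have hprod : ∏ p ∈ S, (1 - g p) ≤ Real.exp (-(2 * ((k : ℝ) + 1) * recipSum S)) := by
    have h1 : ∀ p ∈ S, 1 - g p ≤ Real.exp (-(2 * ((k : ℝ) + 1) * ((1 : ℝ) / p))) := by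
      intro p hp
      rw [hgform p hp]
      have h2 := hk_nn p hp
      have h3 := hk_le p hp
      have h4 : 1 - ((k : ℝ) + 1) / p ≤ Real.exp (-(((k : ℝ) + 1) / p)) := by
        have := Real.add_one_le_exp (-(((k : ℝ) + 1) / p))
        linarith
      have h5 : (1 - ((k : ℝ) + 1) / p) ^ 2 ≤ (Real.exp (-(((k : ℝ) + 1) / p))) ^ 2 :=
        pow_le_pow_left₀ (by linarith) h4 2
      rw [← Real.exp_nat_mul] at h5
      have h6 : ((2 : ℕ) : ℝ) * (-(((k : ℝ) + 1) / p)) = -(2 * ((k : ℝ) + 1) * ((1 : ℝ) / p)) := by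
        push_cast
        ring
      rw [h6] at h5
      linarith
    calc ∏ p ∈ S, (1 - g p) ≤ ∏ p ∈ S, Real.exp (-(2 * ((k : ℝ) + 1) * ((1 : ℝ) / p))) := by
          apply Finset.prod_le_prod
          · intro p hp
            linarith [(hg01 p hp).2]
          · exact h1
      _ = Real.exp (-(2 * ((k : ℝ) + 1) * recipSum S)) := by
          rw [← Real.exp_sum]
          unfold recipSum
          rw [Finset.sum_neg_distrib, Finset.mul_sum]
  have htrunc := truncSum_even_le S g hg01 ℓ hℓ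
  have hexp2 : Real.exp (Real.exp 1 * (∑ p ∈ S, g p) - (ℓ + 1)) ≤
      Real.exp (Real.exp 1 * (2 * ((k : ℝ) + 1) * recipSum S) - (ℓ + 1)) := by
    apply Real.exp_le_exp.mpr
    have := mul_le_mul_of_nonneg_left hsumg (Real.exp_pos 1).le
    linarith
  -- apply the sieve
  have hbrun := brun_count S (fun p hp => (hS p hp).1) X A B L ℓ hℓ
  refine le_trans (Nat.cast_le.mpr (Finset.card_le_card ?_)) (hbrun.trans ?_)
  · intro w hw
    rw [Finset.mem_filter] at hw ⊢
    refine ⟨hw.1, ?_⟩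
    intro p hp hmem
    obtain ⟨o, ho, he⟩ := (mem_badSet O p (hS p hp).1.ne_zero _).mp hmem
    apply hw.2 p hp o ho
    push_cast
    exact he
  apply add_le_add
  · apply mul_le_mul_of_nonneg_left _ (by positivity)
    linarith
  · -- the error terms
    have hKnn : (0 : ℝ) ≤ 2 * ((k : ℝ) + 1) := by positivity
    have hK1 : (1 : ℝ) ≤ 2 * ((k : ℝ) + 1) := by
      have : (0 : ℝ) ≤ k := Nat.cast_nonneg k
      linarith
    have hSz : (S.card : ℝ) ≤ z := by
      have hsub : S ⊆ Finset.Ioc 0 z := by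
        intro p hp
        exact Finset.mem_Ioc.mpr ⟨(hS p hp).1.pos, (hS p hp).2.2⟩
      have := Finset.card_le_card hsub
      rw [Nat.card_Ioc] at this
      exact_mod_cast this
    have hz0 : (0 : ℝ) ≤ z := Nat.cast_nonneg z
    have hterm : ∀ I ∈ S.powerset.filter (fun I => I.card ≤ ℓ),
        (∏ p ∈ I, ((X p).card : ℝ)) * (2 * (L : ℝ) / (∏ p ∈ I, (p : ℝ)) + 1) ≤
        (2 * ((k : ℝ) + 1)) ^ ℓ * (2 * (L : ℝ) + (z : ℝ) ^ ℓ) := by
      intro I hI
      have hI' := Finset.mem_filter.mp hI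
      have hsub := Finset.mem_powerset.mp hI'.1
      have hcardI := hI'.2
      set d : ℝ := ∏ p ∈ I, (p : ℝ) with hd
      have hdpos : 0 < d := Finset.prod_pos (fun p hp => hpos p (hsub hp))
      have hXle : ∀ p ∈ I, ((X p).card : ℝ) ≤ 2 * ((k : ℝ) + 1) * p := by
        intro p hp
        have hpS := hsub hp
        have h1 := (hbad p hpS).1
        rw [hOk] at h1
        push_cast at h1
        have h3 : (0:ℝ) ≤ ((k : ℝ) + 1) ^ 2 := by positivity
        rw [h1]
        nlinarith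
      have hprodle : ∏ p ∈ I, ((X p).card : ℝ) ≤ (2 * ((k : ℝ) + 1)) ^ I.card * d := by
        calc ∏ p ∈ I, ((X p).card : ℝ) ≤ ∏ p ∈ I, (2 * ((k : ℝ) + 1) * p) :=
              Finset.prod_le_prod (fun p _ => Nat.cast_nonneg _) hXle
          _ = (2 * ((k : ℝ) + 1)) ^ I.card * d := by
              rw [Finset.prod_mul_distrib, Finset.prod_const]
      have hprod0 : 0 ≤ ∏ p ∈ I, ((X p).card : ℝ) :=
        Finset.prod_nonneg (fun p _ => Nat.cast_nonneg _)
      have hinner : 0 ≤ 2 * (L : ℝ) / d + 1 := by positivity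
      have hdz : d ≤ (z : ℝ) ^ ℓ := by
        have hzp : (1 : ℝ) ≤ z := by exact_mod_cast hz1
        calc d ≤ ∏ _p ∈ I, (z : ℝ) := by
              apply Finset.prod_le_prod
              · intro p _
                exact Nat.cast_nonneg p
              · intro p hp
                exact_mod_cast (hS p (hsub hp)).2.2
          _ = (z : ℝ) ^ I.card := by rw [Finset.prod_const]
          _ ≤ (z : ℝ) ^ ℓ := pow_le_pow_right₀ hzp hcardI
      calc (∏ p ∈ I, ((X p).card : ℝ)) * (2 * (L : ℝ) / d + 1)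
          ≤ ((2 * ((k : ℝ) + 1)) ^ I.card * d) * (2 * (L : ℝ) / d + 1) :=
            mul_le_mul_of_nonneg_right hprodle hinner
        _ = (2 * ((k : ℝ) + 1)) ^ I.card * (2 * (L : ℝ) + d) := by
            field_simp
        _ ≤ (2 * ((k : ℝ) + 1)) ^ ℓ * (2 * (L : ℝ) + (z : ℝ) ^ ℓ) := by
            apply mul_le_mul (pow_le_pow_right₀ hK1 hcardI) _ (by positivity) (by positivity)
            linarith
    calc ∑ I ∈ S.powerset.filter (fun I => I.card ≤ ℓ),
          (∏ p ∈ I, ((X p).card : ℝ)) * (2 * (L : ℝ) / (∏ p ∈ I, (p : ℝ)) + 1)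
        ≤ ∑ _I ∈ S.powerset.filter (fun I => I.card ≤ ℓ),
            (2 * ((k : ℝ) + 1)) ^ ℓ * (2 * (L : ℝ) + (z : ℝ) ^ ℓ) := Finset.sum_le_sum hterm
      _ = ((S.powerset.filter (fun I => I.card ≤ ℓ)).card : ℝ) *
            ((2 * ((k : ℝ) + 1)) ^ ℓ * (2 * (L : ℝ) + (z : ℝ) ^ ℓ)) := by
          rw [Finset.sum_const, nsmul_eq_mul]
      _ ≤ ((z : ℝ) + 1) ^ ℓ * ((2 * ((k : ℝ) + 1)) ^ ℓ * (2 * (L : ℝ) + (z : ℝ) ^ ℓ)) := by
          apply mul_le_mul_of_nonneg_right _ (by positivity)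
          refine (card_subsets_le S ℓ).trans ?_
          apply pow_le_pow_left₀ (by positivity)
          linarith
      _ = ((z : ℝ) + 1) ^ ℓ * (2 * ((k : ℝ) + 1)) ^ ℓ * (2 * (L : ℝ) + (z : ℝ) ^ ℓ) := by ring

end Vale.Agent.Lib.P015
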