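import Mathlib

/-!
Elementary Mertens type lower bound for primes congruent to 1 modulo 4.
-/

namespace Vale.Agent.Lib.P015

open ArithmeticFunction Finset Real

/-- The real valued nontrivial character modulo 4. -/
noncomputable def chi (n : ℕ) : ℝ := ((ZMod.χ₄ (n : ZMod 4) : ℤ) : ℝ)

lemma chi_eq (n : ℕ) : chi n = if n % 2 = 0 then 0 else if n % 4 = 1 then 1 else -1 := by
  have := ZMod.χ₄_nat_eq_if_mod_four n
  unfold chi
  rw [this]
  split_ifs <;> simp

lemma chi_mul (m n : ℕ) : chi (m * n) = chi m * chi n := by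
  unfold chi
  push_cast
  rw [map_mul]
  push_cast
  ring

lemma abs_chi_le (n : ℕ) : |chi n| ≤ 1 := by
  rw [chi_eq]
  split_ifs <;> simp

/-- partial sums of chi -/
noncomputable def bigX (n : ℕ) : ℝ := if n % 4 = 1 ∨ n % 4 = 2 then 1 else 0

lemma bigX_succ (n : ℕ) : bigX (n + 1) = bigX n + chi (n + 1) := by
  unfold bigX
  rw [chi_eq]
  have h4 : (n + 1) % 4 = (n % 4 + 1) % 4 := by omega
  have h2 : (n + 1) % 2 = (n % 4 + 1) % 2 := by omega
  rw [h4, h2]
  have : n % 4 = 0 ∨ n % 4 = 1 ∨ n % 4 = 2 ∨ n % 4 = 3 := by omega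
  rcases this with h | h | h | h <;> simp [h]

lemma bigX_nonneg (n : ℕ) : 0 ≤ bigX n := by
  unfold bigX; split_ifs <;> norm_num

lemma bigX_le_one (n : ℕ) : bigX n ≤ 1 := by
  unfold bigX; split_ifs <;> norm_num

/-- Abel summation bound for chi against an eventually antitone nonnegative sequence. -/
lemma abel_chi (f : ℕ → ℝ) (t N : ℕ) (ht : t ≤ N)
    (hmono : ∀ n, t < n → f (n + 1) ≤ f n) (hnn : ∀ n, t < n → 0 ≤ f n) :
    |∑ n ∈ Ioc t N, chi n * f n| ≤ 2 * f (t + 1) := by
  have key : ∀ M, t ≤ M →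
      (∑ n ∈ Ioc t M, chi n * f n = bigX M * f (M + 1) - bigX t * f (t + 1)
        + ∑ n ∈ Ioc t M, bigX n * (f n - f (n + 1))) ∧
      (0 ≤ ∑ n ∈ Ioc t M, bigX n * (f n - f (n + 1))) ∧
      (∑ n ∈ Ioc t M, bigX n * (f n - f (n + 1)) ≤ f (t + 1) - f (M + 1)) := by
    intro M hM
    induction M, hM using Nat.le_induction with
    | base => simp
    | succ M hM ih =>
      obtain ⟨h1, h2, h3⟩ := ih
      have hs1 : ∑ n ∈ Ioc t (M + 1), chi n * f n = ∑ n ∈ Ioc t M, chi n * f n + chi (M + 1) * f (M + 1) := by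
        rw [Finset.sum_Ioc_succ_top hM]
      have hs2 : ∑ n ∈ Ioc t (M + 1), bigX n * (f n - f (n + 1)) =
          ∑ n ∈ Ioc t M, bigX n * (f n - f (n + 1)) + bigX (M + 1) * (f (M + 1) - f (M + 1 + 1)) := by
        rw [Finset.sum_Ioc_succ_top hM]
      have hd : 0 ≤ f (M + 1) - f (M + 1 + 1) := by
        have := hmono (M + 1) (by omega); linarith
      have hX0 := bigX_nonneg (M + 1)
      have hX1 := bigX_le_one (M + 1)
      have hprod0 : 0 ≤ bigX (M + 1) * (f (M + 1) - f (M + 1 + 1)) := mul_nonneg hX0 hd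
      have hprod1 : bigX (M + 1) * (f (M + 1) - f (M + 1 + 1)) ≤ f (M + 1) - f (M + 1 + 1) := by
        nlinarith
      refine ⟨?_, ?_, ?_⟩
      · rw [hs1, hs2, h1, bigX_succ M]; ring
      · rw [hs2]; linarith
      · rw [hs2]; linarith
  obtain ⟨h1, h2, h3⟩ := key N ht
  have hfN : 0 ≤ f (N + 1) := hnn _ (by omega)
  have hft : 0 ≤ f (t + 1) := hnn _ (by omega)
  have a1 := bigX_nonneg N
  have a2 := bigX_le_one N
  have a3 := bigX_nonneg t
  have a4 := bigX_le_one t
  have b1 : bigX N * f (N + 1) ≤ f (N + 1) := by nlinarith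
  have b2 : 0 ≤ bigX N * f (N + 1) := mul_nonneg a1 hfN
  have b3 : bigX t * f (t + 1) ≤ f (t + 1) := by nlinarith
  have b4 : 0 ≤ bigX t * f (t + 1) := mul_nonneg a3 hft
  rw [h1, abs_le]
  constructor <;> nlinarith

/-- Partial sums of chi(n)/n. -/
noncomputable def bigL (t : ℕ) : ℝ := ∑ m ∈ Ioc 0 t, chi m / m

lemma bigL_lower : ∀ N : ℕ, 1 ≤ N → 2 / 3 ≤ bigL N := by
  intro N
  induction N using Nat.strong_induction_on with
  | _ N ih =>
    intro hN
    have hstep : ∀ M, bigL (M + 1) = bigL M + chi (M + 1) / ((M + 1 : ℕ) : ℝ) := by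
      intro M
      unfold bigL
      rw [Finset.sum_Ioc_succ_top (Nat.zero_le M)]
    rcases (show N = 1 ∨ N = 2 ∨ N = 3 ∨ 4 ≤ N by omega) with h | h | h | h
    · subst h
      have := hstep 0
      rw [this]
      have h0 : bigL 0 = 0 := by simp [bigL]
      rw [h0, chi_eq]; norm_num
    · subst h
      have e1 := hstep 1
      have e0 := hstep 0
      have h0 : bigL 0 = 0 := by simp [bigL]
      rw [e1, e0, h0, chi_eq, chi_eq]; norm_num
    · subst h
      have e2 := hstep 2
      have e1 := hstep 1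
      have e0 := hstep 0
      have h0 : bigL 0 = 0 := by simp [bigL]
      rw [e2, e1, e0, h0, chi_eq, chi_eq, chi_eq]; norm_num
    · obtain ⟨M, rfl⟩ : ∃ M, N = M + 1 := ⟨N - 1, by omega⟩
      have hM1 : 1 ≤ M := by omega
      have hr : M % 4 = 0 ∨ M % 4 = 1 ∨ M % 4 = 2 ∨ M % 4 = 3 := by omega
      rcases hr with hr | hr | hr | hr
      · -- N mod 4 = 1
        have := ih M (by omega) hM1
        rw [hstep M, chi_eq]
        have h1 : (M + 1) % 2 ≠ 0 := by omega
        have h2 : (M + 1) % 4 = 1 := by omega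
        simp only [h1, h2, if_false, if_true]
        have : (0 : ℝ) ≤ 1 / ((M + 1 : ℕ) : ℝ) := by positivity
        linarith
      · have := ih M (by omega) hM1
        rw [hstep M, chi_eq]
        have h1 : (M + 1) % 2 = 0 := by omega
        simp only [h1, if_true]
        simpa using this
      · -- N mod 4 = 3, go back four steps
        obtain ⟨K, rfl⟩ : ∃ K, M = K + 3 := ⟨M - 3, by omega⟩
        have hK : 1 ≤ K := by omega
        have hKk := ih K (by omega)
        have e3 := hstep (K + 3)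
        have e2 := hstep (K + 2)
        have e1 := hstep (K + 1)
        have e0 := hstep K
        rw [e3, show K + 3 = (K + 2) + 1 from rfl, e2, show K + 2 = (K + 1) + 1 from rfl, e1,
          e0]
        have hK3 : K % 4 = 3 := by omega
        have ch0 : chi (K + 1) = 0 := by rw [chi_eq]; simp [show (K + 1) % 2 = 0 by omega]
        have ch1 : chi (K + 1 + 1) = 1 := by
          rw [chi_eq]
          simp [show (K + 1 + 1) % 2 ≠ 0 by omega, show (K + 1 + 1) % 4 = 1 by omega]
        have ch2 : chi (K + 1 + 1 + 1) = 0 := by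
          rw [chi_eq]; simp [show (K + 1 + 1 + 1) % 2 = 0 by omega]
        have ch3 : chi (K + 1 + 1 + 1 + 1) = -1 := by
          rw [chi_eq]
          simp [show (K + 1 + 1 + 1 + 1) % 2 ≠ 0 by omega, show (K + 1 + 1 + 1 + 1) % 4 ≠ 1 by omega]
        rw [ch0, ch1, ch2, ch3]
        have hbase := hKk hK
        have hpos1 : (0 : ℝ) < ((K + 1 + 1 : ℕ) : ℝ) := by positivity
        have hpos2 : (0 : ℝ) < ((K + 1 + 1 + 1 + 1 : ℕ) : ℝ) := by positivity
        have hle : (1 : ℝ) / ((K + 1 + 1 + 1 + 1 : ℕ) : ℝ) ≤ 1 / ((K + 1 + 1 : ℕ) : ℝ) := by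
          apply one_div_le_one_div_of_le hpos1
          push_cast; linarith
        simp only [zero_div, add_zero]
        have : -1 / ((K + 1 + 1 + 1 + 1 : ℕ) : ℝ) = - (1 / ((K + 1 + 1 + 1 + 1 : ℕ) : ℝ)) := by ring
        rw [this]
        linarith
      · have := ih M (by omega) hM1
        rw [hstep M, chi_eq]
        have h1 : (M + 1) % 2 = 0 := by omega
        simp only [h1, if_true]
        simpa using this

lemma bigL_sub (t N : ℕ) (ht : 1 ≤ t) (htN : t ≤ N) : |bigL N - bigL t| ≤ 2 / t := by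
  have hsplit : bigL N - bigL t = ∑ n ∈ Ioc t N, chi n * ((1 : ℝ) / n) := by
    unfold bigL
    rw [← Finset.sum_Ioc_consecutive _ (Nat.zero_le t) htN]
    simp only [add_sub_cancel_left, div_eq_mul_inv, one_mul]
  rw [hsplit]
  have := abel_chi (fun n => (1 : ℝ) / n) t N htN
    (fun n hn => by
      have hpos : (0 : ℝ) < n := by exact_mod_cast (by omega : 0 < n)
      apply one_div_le_one_div_of_le hpos
      push_cast; linarith)
    (fun n _ => by positivity)
  refine this.trans ?_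
  have htpos : (0 : ℝ) < t := by exact_mod_cast ht
  have : (1 : ℝ) / ((t + 1 : ℕ) : ℝ) ≤ 1 / t := by
    apply one_div_le_one_div_of_le htpos
    push_cast; linarith
  calc 2 * (1 / ((t + 1 : ℕ) : ℝ)) ≤ 2 * (1 / t) := by linarith
    _ = 2 / t := by ring

/-- The alternating sum with log n / n is bounded. -/
lemma sum_chi_log_bound (N : ℕ) : |∑ n ∈ Ioc 0 N, chi n * (Real.log n / n)| ≤ 4 := by
  have hlog : ∀ n : ℕ, 0 ≤ Real.log n / n := fun n => by
    apply div_nonneg (Real.log_natCast_nonneg n) (by positivity)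
  have hlog1 : ∀ n : ℕ, Real.log n / n ≤ 1 := fun n => by
    rcases Nat.eq_zero_or_pos n with rfl | hn
    · simp
    · have hpos : (0 : ℝ) < n := by exact_mod_cast hn
      rw [div_le_one hpos]
      have := Real.log_le_sub_one_of_pos hpos
      linarith
  by_cases hN : N ≤ 3
  · calc |∑ n ∈ Ioc 0 N, chi n * (Real.log n / n)|
        ≤ ∑ n ∈ Ioc 0 N, |chi n * (Real.log n / n)| := abs_sum_le_sum_abs _ _
      _ ≤ ∑ n ∈ Ioc 0 N, (1 : ℝ) := by
          apply sum_le_sum
          intro n _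
          rw [abs_mul, abs_of_nonneg (hlog n)]
          have := abs_chi_le n
          have h1 := hlog n
          have h2 := hlog1 n
          nlinarith [abs_nonneg (chi n)]
      _ = N := by simp
      _ ≤ 4 := by
          have : (N : ℝ) ≤ 3 := by exact_mod_cast hN
          linarith
  · have hN : 3 < N := by omega
    have hsplit : ∑ n ∈ Ioc 0 N, chi n * (Real.log n / n) =
        ∑ n ∈ Ioc 0 3, chi n * (Real.log n / n) + ∑ n ∈ Ioc 3 N, chi n * (Real.log n / n) := by
      rw [Finset.sum_Ioc_consecutive _ (Nat.zero_le 3) hN.le]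
    have h3 : ∑ n ∈ Ioc 0 3, chi n * (Real.log n / n) = -(Real.log 3 / 3) := by
      have : Ioc 0 3 = {1, 2, 3} := by decide
      rw [this]
      rw [Finset.sum_insert (by decide), Finset.sum_insert (by decide), Finset.sum_singleton]
      rw [chi_eq, chi_eq, chi_eq]
      norm_num
    have habel := abel_chi (fun n => Real.log n / n) 3 N hN.le
      (fun n hn => by
        have hn3 : (Real.exp 1) ≤ (n : ℝ) := by
          have : (3 : ℝ) ≤ n := by exact_mod_cast (by omega : 3 ≤ n)
          have := Real.exp_one_lt_d9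
          linarith
        have := Real.log_div_self_antitoneOn (a := (n : ℝ)) (b := ((n + 1 : ℕ) : ℝ))
          hn3 (by
            show Real.exp 1 ≤ ((n + 1 : ℕ) : ℝ)
            push_cast; linarith)
          (by push_cast; linarith)
        simpa using this)
      (fun n _ => hlog n)
    have h4 : (0:ℝ) ≤ Real.log 3 / 3 := hlog 3 |>.trans_eq (by norm_num)
    have h5 : Real.log 3 / 3 ≤ 1 := by
      have := hlog1 3
      simpa using this
    have h6 := hlog1 (3 + 1)
    rw [hsplit, h3]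
    have h7 : |∑ n ∈ Ioc 3 N, chi n * (Real.log n / n)| ≤ 2 := by
      have : 2 * (Real.log ((3 + 1 : ℕ) : ℝ) / ((3 + 1 : ℕ) : ℝ)) ≤ 2 := by linarith
      exact habel.trans this
    rw [abs_le] at h7 ⊢
    constructor <;> linarith [h7.1, h7.2]


/-- The arithmetic function `chi d * vonMangoldt d / d`. -/
noncomputable def fnF : ArithmeticFunction ℝ := ⟨fun d => chi d * vonMangoldt d / d, by simp⟩

/-- The arithmetic function `chi m / m`. -/
noncomputable def fnG : ArithmeticFunction ℝ := ⟨fun m => chi m / m, by simp⟩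

lemma fnF_apply (d : ℕ) : fnF d = chi d * vonMangoldt d / d := rfl
lemma fnG_apply (d : ℕ) : fnG d = chi d / d := rfl

lemma fnF_mul_fnG (n : ℕ) (hn : 0 < n) : (fnF * fnG) n = chi n * (Real.log n / n) := by
  rw [ArithmeticFunction.mul_apply]
  have hstep : ∀ x ∈ n.divisorsAntidiagonal, fnF x.1 * fnG x.2 = (chi n / n) * vonMangoldt x.1 := by
    intro x hx
    have hx' := Nat.mem_divisorsAntidiagonal.mp hx
    have hprod : x.1 * x.2 = n := hx'.1
    rw [fnF_apply, fnG_apply, ← hprod, chi_mul]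
    have h1 : x.1 ≠ 0 := by
      intro h
      rw [h] at hprod
      simp at hprod
      omega
    have h2 : x.2 ≠ 0 := by
      intro h
      rw [h] at hprod
      simp at hprod
      omega
    have h1' : (x.1 : ℝ) ≠ 0 := by exact_mod_cast h1
    have h2' : (x.2 : ℝ) ≠ 0 := by exact_mod_cast h2
    push_cast
    field_simp
  rw [Finset.sum_congr rfl hstep, ← Finset.mul_sum]
  have : ∑ x ∈ n.divisorsAntidiagonal, vonMangoldt x.1 = ∑ i ∈ n.divisors, vonMangoldt i :=
    Nat.sum_divisorsAntidiagonal (fun a _ => vonMangoldt a)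
  rw [this, vonMangoldt_sum]
  ring

lemma sum_fnF_bigL (N : ℕ) :
    ∑ n ∈ Ioc 0 N, chi n * (Real.log n / n) = ∑ d ∈ Ioc 0 N, fnF d * bigL (N / d) := by
  have h := ArithmeticFunction.sum_Ioc_mul_eq_sum_sum fnF fnG N
  have h1 : ∑ n ∈ Ioc 0 N, (fnF * fnG) n = ∑ n ∈ Ioc 0 N, chi n * (Real.log n / n) :=
    Finset.sum_congr rfl (fun n hn => fnF_mul_fnG n (Finset.mem_Ioc.mp hn).1)
  rw [← h1, h]
  rfl

/-- Twisted von Mangoldt partial sum. -/
noncomputable def bigB (N : ℕ) : ℝ := ∑ d ∈ Ioc 0 N, chi d * vonMangoldt d / d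

/-- Von Mangoldt partial sum. -/
noncomputable def bigE (N : ℕ) : ℝ := ∑ d ∈ Ioc 0 N, vonMangoldt d / d

/-- Chebyshev constant. -/
noncomputable def cPsi : ℝ := Real.log 4 + 4

lemma cPsi_nonneg : 0 ≤ cPsi := by
  unfold cPsi
  have : 0 ≤ Real.log 4 := Real.log_nonneg (by norm_num)
  linarith

lemma psi_nat_le (N : ℕ) : ∑ d ∈ Ioc 0 N, vonMangoldt d ≤ cPsi * N := by
  have := Chebyshev.psi_le_const_mul_self (x := (N : ℝ)) (Nat.cast_nonneg N)
  unfold Chebyshev.psi at this
  simpa [cPsi] using this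

lemma bigB_bound (N : ℕ) (hN : 1 ≤ N) : |bigB N| ≤ (3 / 2) * (4 + 4 * cPsi) := by
  have hNpos : (0 : ℝ) < N := by exact_mod_cast hN
  have hA := sum_chi_log_bound N
  rw [sum_fnF_bigL] at hA
  have hdiff : |∑ d ∈ Ioc 0 N, fnF d * bigL (N / d) - bigL N * bigB N| ≤ 4 * cPsi := by
    have hrewrite : ∑ d ∈ Ioc 0 N, fnF d * bigL (N / d) - bigL N * bigB N =
        ∑ d ∈ Ioc 0 N, fnF d * (bigL (N / d) - bigL N) := by
      unfold bigB
      rw [Finset.mul_sum, ← Finset.sum_sub_distrib]
      refine Finset.sum_congr rfl (fun d _ => ?_)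
      rw [fnF_apply]
      ring
    rw [hrewrite]
    calc |∑ d ∈ Ioc 0 N, fnF d * (bigL (N / d) - bigL N)|
        ≤ ∑ d ∈ Ioc 0 N, |fnF d * (bigL (N / d) - bigL N)| := Finset.abs_sum_le_sum_abs _ _
      _ ≤ ∑ d ∈ Ioc 0 N, 4 * vonMangoldt d / N := by
          refine Finset.sum_le_sum (fun d hd => ?_)
          have hd' := Finset.mem_Ioc.mp hd
          have hdpos : (0 : ℝ) < d := by exact_mod_cast hd'.1
          set t := N / d with ht
          have ht1 : 1 ≤ t := Nat.div_pos hd'.2 hd'.1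
          have htN : t ≤ N := Nat.div_le_self N d
          have hsub := bigL_sub t N ht1 htN
          rw [abs_sub_comm] at hsub
          have htpos : (0 : ℝ) < t := by exact_mod_cast ht1
          -- N < (t + 1) d ≤ 2 t d
          have hlt : N < (t + 1) * d := by
            rw [ht]
            have := Nat.lt_div_mul_add (a := N) hd'.1
            nlinarith
          have hlt' : (N : ℝ) ≤ 2 * t * d := by
            have h2 : N ≤ 2 * t * d := by
              have : (t + 1) * d ≤ 2 * t * d := by nlinarith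
              omega
            exact_mod_cast h2
          have hF : |fnF d| ≤ vonMangoldt d / d := by
            rw [fnF_apply, abs_div, abs_mul, abs_of_pos hdpos,
              abs_of_nonneg (ArithmeticFunction.vonMangoldt_nonneg)]
            apply div_le_div_of_nonneg_right _ hdpos.le
            have := abs_chi_le d
            have h0 : 0 ≤ vonMangoldt d := ArithmeticFunction.vonMangoldt_nonneg
            nlinarith
          rw [abs_mul]
          have hL0 : 0 ≤ vonMangoldt d := ArithmeticFunction.vonMangoldt_nonneg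
          have h2t : (2 : ℝ) / t ≤ 4 * d / N := by
            rw [div_le_div_iff₀ htpos hNpos]
            nlinarith
          calc |fnF d| * |bigL t - bigL N| ≤ (vonMangoldt d / d) * (4 * d / N) := by
                apply mul_le_mul hF (hsub.trans h2t) (abs_nonneg _) (by positivity)
            _ = 4 * vonMangoldt d / N := by
                field_simp
      _ = 4 * (∑ d ∈ Ioc 0 N, vonMangoldt d) / N := by
          rw [Finset.mul_sum, Finset.sum_div]
      _ ≤ 4 * (cPsi * N) / N := by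
          apply div_le_div_of_nonneg_right _ hNpos.le
          have := psi_nat_le N
          linarith
      _ = 4 * cPsi := by
          field_simp
  have hL := bigL_lower N hN
  have hLpos : 0 < bigL N := by linarith
  have hmul : bigL N * |bigB N| ≤ 4 + 4 * cPsi := by
    have h1 : |bigL N * bigB N| ≤ |∑ d ∈ Ioc 0 N, fnF d * bigL (N / d)| + 4 * cPsi := by
      have := abs_sub_abs_le_abs_sub (bigL N * bigB N) (∑ d ∈ Ioc 0 N, fnF d * bigL (N / d))
      rw [abs_sub_comm] at this
      linarith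
    rw [abs_mul, abs_of_pos hLpos] at h1
    linarith
  have hB0 := abs_nonneg (bigB N)
  nlinarith

/-- The Stirling type count. -/
lemma sum_log_eq (N : ℕ) :
    ∑ n ∈ Ioc 0 N, Real.log n = ∑ d ∈ Ioc 0 N, vonMangoldt d * ((N / d : ℕ) : ℝ) := by
  have h := ArithmeticFunction.sum_Ioc_mul_zeta_eq_sum (R := ℝ) vonMangoldt N
  rw [ArithmeticFunction.vonMangoldt_mul_zeta] at h
  simpa using h

lemma sum_log_eq_log_factorial (N : ℕ) :
    ∑ n ∈ Ioc 0 N, Real.log n = Real.log (N.factorial) := by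
  induction N with
  | zero => simp
  | succ N ih =>
    rw [Finset.sum_Ioc_succ_top (Nat.zero_le N), ih, Nat.factorial_succ]
    have h1 : ((N + 1 : ℕ) : ℝ) ≠ 0 := by positivity
    have h2 : ((N.factorial : ℕ) : ℝ) ≠ 0 := by
      exact_mod_cast (Nat.factorial_pos N).ne'
    push_cast
    push_cast at h1
    rw [Real.log_mul h1 h2]
    ring

lemma bigE_upper (N : ℕ) (hN : 1 ≤ N) : bigE N ≤ Real.log N + cPsi := by
  have hNpos : (0 : ℝ) < N := by exact_mod_cast hN
  have h1 : (N : ℝ) * bigE N - ∑ d ∈ Ioc 0 N, vonMangoldt d ≤ ∑ d ∈ Ioc 0 N, vonMangoldt d * ((N / d : ℕ) : ℝ) := by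
    unfold bigE
    rw [Finset.mul_sum, ← Finset.sum_sub_distrib]
    refine Finset.sum_le_sum (fun d hd => ?_)
    have hd' := Finset.mem_Ioc.mp hd
    have hdpos : (0 : ℝ) < d := by exact_mod_cast hd'.1
    have h0 : 0 ≤ vonMangoldt d := ArithmeticFunction.vonMangoldt_nonneg
    have hfl : (N : ℝ) / d - 1 ≤ ((N / d : ℕ) : ℝ) := by
      have := Nat.lt_floor_add_one ((N : ℝ) / d)
      rw [Nat.floor_div_eq_div] at this
      linarith
    have : (N : ℝ) * (vonMangoldt d / d) - vonMangoldt d = vonMangoldt d * ((N : ℝ) / d - 1) := by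
      field_simp
    rw [this]
    exact mul_le_mul_of_nonneg_left hfl h0
  rw [← sum_log_eq, sum_log_eq_log_factorial] at h1
  have h2 : Real.log (N.factorial) ≤ N * Real.log N := by
    have : ((N.factorial : ℕ) : ℝ) ≤ (N : ℝ) ^ N := by
      exact_mod_cast Nat.factorial_le_pow N
    have h3 := Real.log_le_log (by exact_mod_cast Nat.factorial_pos N) this
    rwa [Real.log_pow] at h3
  have h3 := psi_nat_le N
  have : (N : ℝ) * bigE N ≤ N * (Real.log N + cPsi) := by
    nlinarith
  exact le_of_mul_le_mul_left this hNpos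

lemma bigE_lower (N : ℕ) (hN : 1 ≤ N) : Real.log N - 1 ≤ bigE N := by
  have hNpos : (0 : ℝ) < N := by exact_mod_cast hN
  have h1 : ∑ d ∈ Ioc 0 N, vonMangoldt d * ((N / d : ℕ) : ℝ) ≤ (N : ℝ) * bigE N := by
    unfold bigE
    rw [Finset.mul_sum]
    refine Finset.sum_le_sum (fun d hd => ?_)
    have hd' := Finset.mem_Ioc.mp hd
    have hdpos : (0 : ℝ) < d := by exact_mod_cast hd'.1
    have h0 : 0 ≤ vonMangoldt d := ArithmeticFunction.vonMangoldt_nonneg
    have hfl : ((N / d : ℕ) : ℝ) ≤ (N : ℝ) / d := Nat.cast_div_le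
    have : (N : ℝ) * (vonMangoldt d / d) = vonMangoldt d * ((N : ℝ) / d) := by ring
    rw [this]
    exact mul_le_mul_of_nonneg_left hfl h0
  rw [← sum_log_eq, sum_log_eq_log_factorial] at h1
  have h2 := Stirling.le_log_factorial_stirling (n := N) (by omega)
  have h3 : 0 ≤ Real.log N := Real.log_natCast_nonneg N
  have h4 : 0 ≤ Real.log (2 * Real.pi) := Real.log_nonneg (by
    have := Real.pi_gt_three
    linarith)
  have : (N : ℝ) * (Real.log N - 1) ≤ N * bigE N := by
    nlinarith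
  exact le_of_mul_le_mul_left this hNpos


/-- Uniform bound for the prime power part of the von Mangoldt sum. -/
lemma exists_nonprime_const : ∃ C : ℝ, 0 ≤ C ∧ ∀ N : ℕ,
    ∑ d ∈ Ioc 0 N, (if d.Prime then 0 else vonMangoldt d / d) ≤ C := by
  have hs := ArithmeticFunction.vonMangoldt.summable_residueClass_non_primes_div (q := 1) 0
  have hres : ∀ n : ℕ, ArithmeticFunction.vonMangoldt.residueClass (0 : ZMod 1) n = vonMangoldt n := by
    intro n
    simp [ArithmeticFunction.vonMangoldt.residueClass, Set.indicator, Subsingleton.elim ((n : ZMod 1)) 0]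
  have heq : ∀ n : ℕ, (if n.Prime then (0 : ℝ) else ArithmeticFunction.vonMangoldt.residueClass (0 : ZMod 1) n) / n
      = (if n.Prime then 0 else vonMangoldt n / n) := by
    intro n
    rw [hres]
    split_ifs <;> simp
  simp_rw [heq] at hs
  have hnn : ∀ n : ℕ, 0 ≤ (if n.Prime then (0 : ℝ) else vonMangoldt n / n) := by
    intro n
    split_ifs
    · exact le_rfl
    · exact div_nonneg ArithmeticFunction.vonMangoldt_nonneg (Nat.cast_nonneg n)
  refine ⟨∑' n : ℕ, (if n.Prime then (0 : ℝ) else vonMangoldt n / n), tsum_nonneg hnn, fun N => ?_⟩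
  exact hs.sum_le_tsum _ (fun i _ => hnn i)

/-- Sum of `log p / p` over primes congruent to 1 modulo 4. -/
noncomputable def bigS (N : ℕ) : ℝ :=
  ∑ d ∈ Ioc 0 N, (if d.Prime ∧ d % 4 = 1 then Real.log d / d else 0)

lemma bigS_upper (N : ℕ) (hN : 1 ≤ N) : bigS N ≤ Real.log N + cPsi := by
  refine le_trans ?_ (bigE_upper N hN)
  unfold bigS bigE
  refine Finset.sum_le_sum (fun d _ => ?_)
  split_ifs with h
  · rw [ArithmeticFunction.vonMangoldt_apply_prime h.1]
  · exact div_nonneg ArithmeticFunction.vonMangoldt_nonneg (Nat.cast_nonneg d)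

lemma bigS_lower : ∃ C : ℝ, ∀ N : ℕ, 1 ≤ N → (1 / 2) * Real.log N - C ≤ bigS N := by
  obtain ⟨C, hC0, hC⟩ := exists_nonprime_const
  refine ⟨C + (1 + (3 / 2) * (4 + 4 * cPsi) + Real.log 2 / 2 + C) / 2, fun N hN => ?_⟩
  -- the class sum
  set D := ∑ d ∈ Ioc 0 N, (if d % 4 = 1 then vonMangoldt d / d else 0) with hD
  set Ev := ∑ d ∈ Ioc 0 N, (if d % 2 = 0 then vonMangoldt d / d else 0) with hEv
  have hid : 2 * D = bigE N + bigB N - Ev := by
    rw [hD, hEv]
    unfold bigE bigB
    rw [Finset.mul_sum, ← Finset.sum_add_distrib, ← Finset.sum_sub_distrib]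
    refine Finset.sum_congr rfl (fun d _ => ?_)
    rw [chi_eq]
    have hc : (d % 4 = 1 ∧ d % 2 ≠ 0) ∨ (d % 4 ≠ 1 ∧ d % 2 = 0) ∨ (d % 4 ≠ 1 ∧ d % 2 ≠ 0) := by omega
    rcases hc with ⟨h1, h2⟩ | ⟨h1, h2⟩ | ⟨h1, h2⟩
    · simp only [h1, h2, if_true, if_false]
      ring
    · simp only [h1, h2, if_true, if_false]
      ring
    · simp only [h1, h2, if_true, if_false]
      ring
  have hEvle : Ev ≤ Real.log 2 / 2 + C := by
    have hpt : ∀ d ∈ Ioc 0 N, (if d % 2 = 0 then vonMangoldt d / d else 0) ≤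
        (if d = 2 then Real.log 2 / 2 else 0) + (if d.Prime then 0 else vonMangoldt d / d) := by
      intro d _
      have hnn : 0 ≤ vonMangoldt d / d :=
        div_nonneg ArithmeticFunction.vonMangoldt_nonneg (Nat.cast_nonneg d)
      by_cases hd2 : d = 2
      · subst hd2
        simp [ArithmeticFunction.vonMangoldt_apply_prime Nat.prime_two, Nat.prime_two]
      · by_cases hp : d.Prime
        · have h2 : d % 2 ≠ 0 := by
            intro h
            exact hd2 ((Nat.prime_dvd_prime_iff_eq Nat.prime_two hp).mp (Nat.dvd_of_mod_eq_zero h)).symm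
          simp [h2, hp, hd2]
        · simp only [hp, hd2, if_false, zero_add]
          split_ifs
          · exact le_rfl
          · exact hnn
    calc Ev ≤ ∑ d ∈ Ioc 0 N, ((if d = 2 then Real.log 2 / 2 else 0) + (if d.Prime then 0 else vonMangoldt d / d)) :=
          Finset.sum_le_sum hpt
      _ = ∑ d ∈ Ioc 0 N, (if d = 2 then Real.log 2 / 2 else 0) + ∑ d ∈ Ioc 0 N, (if d.Prime then 0 else vonMangoldt d / d) :=
          Finset.sum_add_distrib
      _ ≤ Real.log 2 / 2 + C := by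
          apply add_le_add _ (hC N)
          rw [Finset.sum_ite_eq']
          split_ifs
          · exact le_rfl
          · have := Real.log_nonneg (show (1:ℝ) ≤ 2 by norm_num)
            linarith
  have hDS : D ≤ bigS N + C := by
    refine le_trans ?_ (add_le_add le_rfl (hC N))
    unfold bigS
    rw [← Finset.sum_add_distrib]
    refine Finset.sum_le_sum (fun d _ => ?_)
    have hnn : 0 ≤ vonMangoldt d / d :=
      div_nonneg ArithmeticFunction.vonMangoldt_nonneg (Nat.cast_nonneg d)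
    by_cases hp : d.Prime
    · by_cases h4 : d % 4 = 1
      · simp [hp, h4, ArithmeticFunction.vonMangoldt_apply_prime hp]
      · simp [hp, h4]
    · simp only [hp, false_and, if_false, zero_add]
      split_ifs
      · exact le_rfl
      · exact hnn
  have hB := bigB_bound N hN
  have hE := bigE_lower N hN
  have hB' := (abs_le.mp hB).1
  have hmain : (1 / 2) * Real.log N - (C + (1 + (3 / 2) * (4 + 4 * cPsi) + Real.log 2 / 2 + C) / 2) ≤ D - C := by
    linarith
  linarith

/-- The reciprocal sum over primes congruent to 1 modulo 4 in the interval `(a, b]`. -/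
noncomputable def blockSum (a b : ℕ) : ℝ :=
  ∑ p ∈ (Ioc a b).filter (fun p => p.Prime ∧ p % 4 = 1), (1 : ℝ) / p

lemma blockSum_add (a b c : ℕ) (hab : a ≤ b) (hbc : b ≤ c) :
    blockSum a c = blockSum a b + blockSum b c := by
  unfold blockSum
  rw [Finset.sum_filter, Finset.sum_filter, Finset.sum_filter,
    Finset.sum_Ioc_consecutive _ hab hbc]

lemma blockSum_one_quarter : ∃ Y₀ : ℕ, 2 ≤ Y₀ ∧ ∀ Y : ℕ, Y₀ ≤ Y → 1 / 4 ≤ blockSum Y (Y ^ 8) := by
  obtain ⟨C, hC⟩ := bigS_lower
  set C' := max C 0 + cPsi with hC'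
  have hC'0 : 0 ≤ C' := by
    have := le_max_right C 0
    have := cPsi_nonneg
    linarith
  refine ⟨⌈Real.exp C'⌉₊ + 3, by omega, fun Y hY => ?_⟩
  have hY3 : 3 ≤ Y := by omega
  have hYreal : (3 : ℝ) ≤ Y := by exact_mod_cast hY3
  have hYpos : (0 : ℝ) < Y := by linarith
  have hYexp : Real.exp C' ≤ Y := by
    have h1 : Real.exp C' ≤ (⌈Real.exp C'⌉₊ : ℝ) := Nat.le_ceil _
    have h2 : ((⌈Real.exp C'⌉₊ + 3 : ℕ) : ℝ) ≤ Y := by exact_mod_cast hY
    push_cast at h2
    linarith
  have hlogY : C' ≤ Real.log Y := (Real.le_log_iff_exp_le hYpos).mpr hYexp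
  have hlogpos : 0 < Real.log Y := Real.log_pos (by linarith)
  have hY8 : Y ≤ Y ^ 8 := Nat.le_self_pow (by norm_num) Y
  have hdiff : bigS (Y ^ 8) - bigS Y =
      ∑ p ∈ (Ioc Y (Y ^ 8)).filter (fun p => p.Prime ∧ p % 4 = 1), Real.log p / p := by
    unfold bigS
    rw [← Finset.sum_Ioc_consecutive _ (Nat.zero_le Y) hY8, Finset.sum_filter]
    ring
  have hle : ∑ p ∈ (Ioc Y (Y ^ 8)).filter (fun p => p.Prime ∧ p % 4 = 1), Real.log p / p ≤
      (8 * Real.log Y) * blockSum Y (Y ^ 8) := by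
    unfold blockSum
    rw [Finset.mul_sum]
    refine Finset.sum_le_sum (fun p hp => ?_)
    have hp' := Finset.mem_filter.mp hp
    have hpI := Finset.mem_Ioc.mp hp'.1
    have hppos : (0 : ℝ) < p := by exact_mod_cast (hp'.2.1.pos)
    have hlog : Real.log p ≤ 8 * Real.log Y := by
      have hle : (p : ℝ) ≤ (Y : ℝ) ^ 8 := by exact_mod_cast hpI.2
      have := Real.log_le_log hppos hle
      rw [Real.log_pow] at this
      simpa using this
    have : (8 * Real.log Y) * (1 / (p : ℝ)) = (8 * Real.log Y) / p := by ring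
    rw [this]
    exact div_le_div_of_nonneg_right hlog hppos.le
  have hlow := hC (Y ^ 8) (Nat.one_le_pow _ _ (by omega))
  have hup := bigS_upper Y (by omega)
  have hlog8 : Real.log ((Y ^ 8 : ℕ) : ℝ) = 8 * Real.log Y := by
    push_cast
    rw [Real.log_pow]
    norm_num
  rw [hlog8] at hlow
  have hmaxC : C ≤ max C 0 := le_max_left _ _
  have hkey : 2 * Real.log Y ≤ (8 * Real.log Y) * blockSum Y (Y ^ 8) := by
    have : bigS (Y ^ 8) - bigS Y ≤ (8 * Real.log Y) * blockSum Y (Y ^ 8) := by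
      rw [hdiff]
      exact hle
    nlinarith
  have : (8 * Real.log Y) * (1 / 4) ≤ (8 * Real.log Y) * blockSum Y (Y ^ 8) := by
    linarith
  exact le_of_mul_le_mul_left this (by linarith)

/-- Iterated form: the elementary Mertens bound for primes congruent to 1 modulo 4. -/
theorem blockSum_iter : ∃ Y₀ : ℕ, 2 ≤ Y₀ ∧ ∀ Y : ℕ, Y₀ ≤ Y → ∀ j : ℕ,
    (j : ℝ) / 4 ≤ blockSum Y (Y ^ (8 ^ j)) := by
  obtain ⟨Y₀, h2, h⟩ := blockSum_one_quarter
  refine ⟨Y₀, h2, fun Y hY j => ?_⟩
  have hYpos : 0 < Y := by omega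
  induction j with
  | zero =>
    simp [blockSum]
  | succ j ih =>
    have h1 : Y ≤ Y ^ (8 ^ j) := Nat.le_self_pow (by positivity) Y
    have h3 : Y ^ (8 ^ (j + 1)) = (Y ^ (8 ^ j)) ^ 8 := by
      rw [pow_succ, pow_mul]
    have h4 : Y ^ (8 ^ j) ≤ (Y ^ (8 ^ j)) ^ 8 := Nat.le_self_pow (by norm_num) _
    rw [h3, blockSum_add Y (Y ^ (8 ^ j)) _ h1 h4]
    have := h (Y ^ (8 ^ j)) (le_trans hY h1)
    push_cast
    linarith


lemma blockSum_le_eight : ∃ Y₀ : ℕ, 2 ≤ Y₀ ∧ ∀ Y : ℕ, Y₀ ≤ Y → blockSum Y (Y ^ 8) ≤ 8 := by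
  obtain ⟨C, hC⟩ := bigS_lower
  set C' := max C 0 + cPsi with hC'
  have hC'0 : 0 ≤ C' := by
    have := le_max_right C 0
    have := cPsi_nonneg
    linarith
  refine ⟨⌈Real.exp (2 * C')⌉₊ + 3, by omega, fun Y hY => ?_⟩
  have hY3 : 3 ≤ Y := by omega
  have hYreal : (3 : ℝ) ≤ Y := by exact_mod_cast hY3
  have hYpos : (0 : ℝ) < Y := by linarith
  have hYexp : Real.exp (2 * C') ≤ Y := by
    have h1 : Real.exp (2 * C') ≤ (⌈Real.exp (2 * C')⌉₊ : ℝ) := Nat.le_ceil _
    have h2 : ((⌈Real.exp (2 * C')⌉₊ + 3 : ℕ) : ℝ) ≤ Y := by exact_mod_cast hY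
    push_cast at h2
    linarith
  have hlogY : 2 * C' ≤ Real.log Y := (Real.le_log_iff_exp_le hYpos).mpr hYexp
  have hlogpos : 0 < Real.log Y := Real.log_pos (by linarith)
  have hY8 : Y ≤ Y ^ 8 := Nat.le_self_pow (by norm_num) Y
  have hdiff : bigS (Y ^ 8) - bigS Y =
      ∑ p ∈ (Ioc Y (Y ^ 8)).filter (fun p => p.Prime ∧ p % 4 = 1), Real.log p / p := by
    unfold bigS
    rw [← Finset.sum_Ioc_consecutive _ (Nat.zero_le Y) hY8, Finset.sum_filter]
    ring
  have hge : (Real.log Y) * blockSum Y (Y ^ 8) ≤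
      ∑ p ∈ (Ioc Y (Y ^ 8)).filter (fun p => p.Prime ∧ p % 4 = 1), Real.log p / p := by
    unfold blockSum
    rw [Finset.mul_sum]
    refine Finset.sum_le_sum (fun p hp => ?_)
    have hp' := Finset.mem_filter.mp hp
    have hpI := Finset.mem_Ioc.mp hp'.1
    have hppos : (0 : ℝ) < p := by exact_mod_cast (hp'.2.1.pos)
    have hlog : Real.log Y ≤ Real.log p := by
      apply Real.log_le_log hYpos
      exact_mod_cast hpI.1.le
    have : (Real.log Y) * (1 / (p : ℝ)) = (Real.log Y) / p := by ring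
    rw [this]
    exact div_le_div_of_nonneg_right hlog hppos.le
  have hup := bigS_upper (Y ^ 8) (Nat.one_le_pow _ _ (by omega))
  have hlow := hC Y (by omega)
  have hlog8 : Real.log ((Y ^ 8 : ℕ) : ℝ) = 8 * Real.log Y := by
    push_cast
    rw [Real.log_pow]
    norm_num
  rw [hlog8] at hup
  have hmaxC : C ≤ max C 0 := le_max_left _ _
  have hlogn : (0 : ℝ) ≤ Real.log Y := hlogpos.le
  have hkey : (Real.log Y) * blockSum Y (Y ^ 8) ≤ (Real.log Y) * 8 := by
    have h5 : cPsi ≤ C' := by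
      have := le_max_right C 0
      linarith
    have h6 : C ≤ C' := by
      have := cPsi_nonneg
      linarith
    nlinarith
  exact le_of_mul_le_mul_left hkey hlogpos

theorem blockSum_iter_upper : ∃ Y₀ : ℕ, 2 ≤ Y₀ ∧ ∀ Y : ℕ, Y₀ ≤ Y → ∀ j : ℕ,
    blockSum Y (Y ^ (8 ^ j)) ≤ 8 * (j : ℝ) := by
  obtain ⟨Y₀, h2, h⟩ := blockSum_le_eight
  refine ⟨Y₀, h2, fun Y hY j => ?_⟩
  have hYpos : 0 < Y := by omega
  induction j with
  | zero =>
    simp [blockSum]
  | succ j ih =>
    have h1 : Y ≤ Y ^ (8 ^ j) := Nat.le_self_pow (by positivity) Y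
    have h3 : Y ^ (8 ^ (j + 1)) = (Y ^ (8 ^ j)) ^ 8 := by
      rw [pow_succ, pow_mul]
    have h4 : Y ^ (8 ^ j) ≤ (Y ^ (8 ^ j)) ^ 8 := Nat.le_self_pow (by norm_num) _
    rw [h3, blockSum_add Y (Y ^ (8 ^ j)) _ h1 h4]
    have := h (Y ^ (8 ^ j)) (le_trans hY h1)
    push_cast
    linarith

end Vale.Agent.Lib.P015
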