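import Mathlib
import Vale.Agent.Lib.P015.Mertens
import Vale.Agent.Lib.P015.Local

/-!
Union bound over all step sequences and the choice of the sifting primes.
-/

namespace Vale.Agent.Lib.P015

open Finset

/-- The possible steps. -/
noncomputable def stepBox (Δ : ℕ) : Finset (ℤ × ℤ) := Icc (-(Δ : ℤ)) Δ ×ˢ Icc (-(Δ : ℤ)) Δ

lemma card_stepBox (Δ : ℕ) : (stepBox Δ).card = (2 * Δ + 1) ^ 2 := by
  unfold stepBox
  rw [card_product, Int.card_Icc]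
  have : ((Δ : ℤ) + 1 - (-(Δ : ℤ))).toNat = 2 * Δ + 1 := by omega
  rw [this]
  ring

/-- Partial sums of a step sequence. -/
def off {k : ℕ} (s : Fin k → ℤ × ℤ) (j : ℕ) : ℤ × ℤ :=
  ∑ i : Fin k, if (i : ℕ) < j then s i else 0

lemma off_zero {k : ℕ} (s : Fin k → ℤ × ℤ) : off s 0 = 0 := by
  simp [off]

lemma off_succ {k : ℕ} (s : Fin k → ℤ × ℤ) (j : ℕ) (hj : j < k) :
    off s (j + 1) = off s j + s ⟨j, hj⟩ := by
  unfold off
  have h : ∀ i : Fin k, (if (i : ℕ) < j + 1 then s i else 0) =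
      (if (i : ℕ) < j then s i else 0) + (if i = ⟨j, hj⟩ then s i else 0) := by
    intro i
    by_cases h1 : (i : ℕ) < j
    · have h2 : (i : ℕ) < j + 1 := by omega
      have h3 : i ≠ ⟨j, hj⟩ := by
        intro h
        rw [h] at h1
        simp at h1
      simp [h1, h2, h3]
    · by_cases h2 : (i : ℕ) = j
      · have h3 : i = ⟨j, hj⟩ := Fin.ext h2
        subst h3
        simp
      · have h3 : ¬ (i : ℕ) < j + 1 := by omega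
        have h4 : i ≠ ⟨j, hj⟩ := by
          intro h
          rw [h] at h2
          simp at h2
        simp [h1, h3, h4]
  rw [Finset.sum_congr rfl (fun i _ => h i), Finset.sum_add_distrib]
  simp

lemma off_bound {k : ℕ} (Δ : ℕ) (s : Fin k → ℤ × ℤ) (hs : ∀ i, s i ∈ stepBox Δ) :
    ∀ j : ℕ, j ≤ k → |(off s j).1| ≤ j * Δ ∧ |(off s j).2| ≤ j * Δ := by
  intro j
  induction j with
  | zero =>
    intro _
    simp [off_zero]
  | succ j ih =>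
    intro hj
    have hj' : j < k := by omega
    obtain ⟨h1, h2⟩ := ih (by omega)
    rw [off_succ s j hj']
    have hmem := hs ⟨j, hj'⟩
    unfold stepBox at hmem
    rw [Finset.mem_product, Finset.mem_Icc, Finset.mem_Icc] at hmem
    obtain ⟨⟨a1, a2⟩, ⟨a3, a4⟩⟩ := hmem
    have e1 : |(s ⟨j, hj'⟩).1| ≤ Δ := abs_le.mpr ⟨a1, a2⟩
    have e2 : |(s ⟨j, hj'⟩).2| ≤ Δ := abs_le.mpr ⟨a3, a4⟩
    constructor
    · calc |(off s j + s ⟨j, hj'⟩).1| = |(off s j).1 + (s ⟨j, hj'⟩).1| := rfl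
        _ ≤ |(off s j).1| + |(s ⟨j, hj'⟩).1| := abs_add_le _ _
        _ ≤ j * Δ + Δ := add_le_add h1 e1
        _ = ((j + 1 : ℕ) : ℤ) * Δ := by push_cast; ring
    · calc |(off s j + s ⟨j, hj'⟩).2| = |(off s j).2 + (s ⟨j, hj'⟩).2| := rfl
        _ ≤ |(off s j).2| + |(s ⟨j, hj'⟩).2| := abs_add_le _ _
        _ ≤ j * Δ + Δ := add_le_add h2 e2
        _ = ((j + 1 : ℕ) : ℤ) * Δ := by push_cast; ring

/-- The difference of two partial sums has small norm. -/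
lemma off_diff_norm {k : ℕ} (Δ : ℕ) (s : Fin k → ℤ × ℤ) (hs : ∀ i, s i ∈ stepBox Δ)
    (i j : ℕ) (hi : i ≤ k) (hj : j ≤ k) :
    ((off s i).1 - (off s j).1) ^ 2 + ((off s i).2 - (off s j).2) ^ 2 ≤ 8 * (k : ℤ) ^ 2 * (Δ : ℤ) ^ 2 := by
  obtain ⟨a1, a2⟩ := off_bound Δ s hs i hi
  obtain ⟨b1, b2⟩ := off_bound Δ s hs j hj
  have hi' : (i : ℤ) * Δ ≤ k * Δ := by
    apply mul_le_mul_of_nonneg_right _ (by positivity)
    exact_mod_cast hi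
  have hj' : (j : ℤ) * Δ ≤ k * Δ := by
    apply mul_le_mul_of_nonneg_right _ (by positivity)
    exact_mod_cast hj
  have c1 : |(off s i).1 - (off s j).1| ≤ 2 * (k * Δ) := by
    have := abs_sub (off s i).1 (off s j).1
    linarith
  have c2 : |(off s i).2 - (off s j).2| ≤ 2 * (k * Δ) := by
    have := abs_sub (off s i).2 (off s j).2
    linarith
  have d1 : ((off s i).1 - (off s j).1) ^ 2 ≤ (2 * ((k : ℤ) * Δ)) ^ 2 := by
    rw [← sq_abs]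
    exact pow_le_pow_left₀ (abs_nonneg _) c1 2
  have d2 : ((off s i).2 - (off s j).2) ^ 2 ≤ (2 * ((k : ℤ) * Δ)) ^ 2 := by
    rw [← sq_abs]
    exact pow_le_pow_left₀ (abs_nonneg _) c2 2
  nlinarith

/-- The property of surviving the sieve along a shape. -/
def alivePred (S : Finset ℕ) (O : Finset (ℤ × ℤ)) (w : ℤ × ℤ) : Prop :=
  ∀ p ∈ S, ∀ o ∈ O, (((w.1 + o.1 : ℤ) : ZMod p)) ^ 2 + (((w.2 + o.2 : ℤ) : ZMod p)) ^ 2 ≠ 0

/-- The sieve bound in a form free of decidability instances. -/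
lemma alive_count_subset (S : Finset ℕ) (z k : ℕ) (hz1 : 1 ≤ z)
    (hS : ∀ p ∈ S, p.Prime ∧ p % 4 = 1 ∧ p ≤ z) (O : Finset (ℤ × ℤ)) (hOk : O.card = k + 1)
    (hO : ∀ p ∈ S, ∀ o ∈ O, ∀ o' ∈ O, o ≠ o' →
      (o.1 - o'.1) ^ 2 + (o.2 - o'.2) ^ 2 < (p : ℤ))
    (A B : ℤ) (L ℓ : ℕ) (hℓ : Even ℓ) (U : Finset (ℤ × ℤ))
    (hU : ∀ w ∈ U, w ∈ Ico A (A + L) ×ˢ Ico B (B + L) ∧ ∀ p ∈ S, ∀ o ∈ O,
          (((w.1 + o.1 : ℤ) : ZMod p)) ^ 2 + (((w.2 + o.2 : ℤ) : ZMod p)) ^ 2 ≠ 0) :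
    (U.card : ℝ)
    ≤ (L : ℝ) ^ 2 * (Real.exp (-(2 * ((k : ℝ) + 1) * recipSum S)) +
        Real.exp (Real.exp 1 * (2 * ((k : ℝ) + 1) * recipSum S) - (ℓ + 1))) +
      ((z : ℝ) + 1) ^ ℓ * (2 * ((k : ℝ) + 1)) ^ ℓ * (2 * (L : ℝ) + (z : ℝ) ^ ℓ) := by
  refine le_trans (Nat.cast_le.mpr (Finset.card_le_card (fun w hw => ?_)))
    (alive_count S z k hz1 hS O hOk hO A B L ℓ hℓ)
  exact Finset.mem_filter.mpr (hU w hw)

/-- The bookkeeping inequality for powers of `k`. -/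
lemma power_bookkeeping (Δ E j k z ℓ C : ℕ) (hE1 : 1 ≤ E) (hzk : z ≤ k ^ (3 * E))
    (hk3 : 3 ≤ k) (hkbig : 243 * (2 * Δ + 1) ^ 2 ≤ k) (hℓ : ℓ = 56 * j * (k + 1))
    (hC : C = 1 + (6 * E + 3) * 112 * j) :
    3 * ((2 * Δ + 1 : ℕ) : ℝ) ^ (2 * k) * ((z : ℝ) + 1) ^ ℓ * (2 * ((k : ℝ) + 1)) ^ ℓ * (z : ℝ) ^ ℓ *
      Real.exp (2 * ((k : ℝ) + 1)) ≤ (k : ℝ) ^ (C * k) := by
  have hk1 : 1 ≤ k := by omega
  have hK1 : (1 : ℝ) ≤ (k : ℝ) := by exact_mod_cast hk1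
  have hzK : (z : ℝ) ≤ (k : ℝ) ^ (3 * E) := by exact_mod_cast hzk
  have h2k : (2 : ℝ) ≤ (k : ℝ) := by exact_mod_cast (by omega : 2 ≤ k)
  have h3k : (3 : ℝ) ≤ (k : ℝ) := by exact_mod_cast hk3
  have hz1K : (z : ℝ) + 1 ≤ (k : ℝ) ^ (3 * E + 1) := by
    have h0 : (1 : ℝ) ≤ (k : ℝ) ^ (3 * E) := one_le_pow₀ hK1
    rw [pow_succ]
    nlinarith
  have h2K : 2 * ((k : ℝ) + 1) ≤ (k : ℝ) ^ 2 := by nlinarith
  have hPK : ((z : ℝ) + 1) ^ ℓ * (2 * ((k : ℝ) + 1)) ^ ℓ * (z : ℝ) ^ ℓ ≤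
      (k : ℝ) ^ ((6 * E + 3) * (112 * j * k)) := by
    calc ((z : ℝ) + 1) ^ ℓ * (2 * ((k : ℝ) + 1)) ^ ℓ * (z : ℝ) ^ ℓ
        = (((z : ℝ) + 1) * (2 * ((k : ℝ) + 1)) * (z : ℝ)) ^ ℓ := by
          rw [mul_pow (((z : ℝ) + 1) * (2 * ((k : ℝ) + 1))) (z : ℝ) ℓ,
            mul_pow ((z : ℝ) + 1) (2 * ((k : ℝ) + 1)) ℓ]
      _ ≤ ((k : ℝ) ^ (3 * E + 1) * (k : ℝ) ^ 2 * (k : ℝ) ^ (3 * E)) ^ ℓ := by
          apply pow_le_pow_left₀ (by positivity)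
          apply mul_le_mul (mul_le_mul hz1K h2K (by positivity) (by positivity)) hzK
            (by positivity) (by positivity)
      _ = (k : ℝ) ^ ((6 * E + 3) * ℓ) := by
          rw [← pow_add, ← pow_add, ← pow_mul]
          congr 2
          ring
      _ ≤ (k : ℝ) ^ ((6 * E + 3) * (112 * j * k)) := by
          apply pow_le_pow_right₀ hK1
          apply Nat.mul_le_mul_left
          rw [hℓ]
          have : 56 * j * (k + 1) ≤ 56 * j * (2 * k) := Nat.mul_le_mul_left _ (by omega)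
          calc 56 * j * (k + 1) ≤ 56 * j * (2 * k) := this
            _ = 112 * j * k := by ring
  have h3K : 3 * ((2 * Δ + 1 : ℕ) : ℝ) ^ (2 * k) * Real.exp (2 * ((k : ℝ) + 1)) ≤ (k : ℝ) ^ k := by
    have he1 : Real.exp 1 ≤ 3 := by
      have := Real.exp_one_lt_d9
      linarith
    have hexp : Real.exp (2 * ((k : ℝ) + 1)) ≤ 81 ^ k := by
      have h1 : Real.exp (2 * ((k : ℝ) + 1)) = (Real.exp 1) ^ (2 * (k + 1)) := by
        rw [← Real.exp_nat_mul]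
        congr 1
        push_cast
        ring
      rw [h1]
      calc (Real.exp 1) ^ (2 * (k + 1)) ≤ (3 : ℝ) ^ (2 * (k + 1)) :=
            pow_le_pow_left₀ (Real.exp_pos 1).le he1 _
        _ ≤ (3 : ℝ) ^ (4 * k) := pow_le_pow_right₀ (by norm_num) (by omega)
        _ = 81 ^ k := by rw [pow_mul]; norm_num
    have h3k' : (3 : ℝ) ≤ 3 ^ k := by
      calc (3 : ℝ) = 3 ^ 1 := by norm_num
        _ ≤ 3 ^ k := pow_le_pow_right₀ (by norm_num) hk1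
    have hbase : (3 : ℝ) * (((2 * Δ + 1 : ℕ) : ℝ) ^ 2) * 81 ≤ (k : ℝ) := by
      have h2 : ((243 * (2 * Δ + 1) ^ 2 : ℕ) : ℝ) ≤ (k : ℝ) := by exact_mod_cast hkbig
      push_cast at h2
      push_cast
      nlinarith
    have hNs0 : (0 : ℝ) ≤ ((2 * Δ + 1 : ℕ) : ℝ) ^ (2 * k) := by positivity
    calc 3 * ((2 * Δ + 1 : ℕ) : ℝ) ^ (2 * k) * Real.exp (2 * ((k : ℝ) + 1))
        ≤ 3 ^ k * ((2 * Δ + 1 : ℕ) : ℝ) ^ (2 * k) * 81 ^ k := by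
          apply mul_le_mul (mul_le_mul_of_nonneg_right h3k' hNs0) hexp (Real.exp_pos _).le
            (by positivity)
      _ = ((3 : ℝ) * (((2 * Δ + 1 : ℕ) : ℝ) ^ 2) * 81) ^ k := by
          rw [pow_mul, mul_pow, mul_pow]
      _ ≤ (k : ℝ) ^ k := pow_le_pow_left₀ (by positivity) hbase k
  have hsplit : (k : ℝ) ^ (C * k) = (k : ℝ) ^ k * (k : ℝ) ^ ((6 * E + 3) * (112 * j * k)) := by
    rw [← pow_add, hC]
    congr 1
    ring
  rw [hsplit]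
  calc 3 * ((2 * Δ + 1 : ℕ) : ℝ) ^ (2 * k) * ((z : ℝ) + 1) ^ ℓ * (2 * ((k : ℝ) + 1)) ^ ℓ * (z : ℝ) ^ ℓ
        * Real.exp (2 * ((k : ℝ) + 1))
      = (3 * ((2 * Δ + 1 : ℕ) : ℝ) ^ (2 * k) * Real.exp (2 * ((k : ℝ) + 1))) *
        (((z : ℝ) + 1) ^ ℓ * (2 * ((k : ℝ) + 1)) ^ ℓ * (z : ℝ) ^ ℓ) := by
        ring
    _ ≤ (k : ℝ) ^ k * (k : ℝ) ^ ((6 * E + 3) * (112 * j * k)) := by
        apply mul_le_mul h3K hPK (by positivity) (by positivity)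

/-- The natural number inequality controlling the sifting limit. -/
lemma size_bookkeeping (Δ E j k z C : ℕ) (hE1 : 1 ≤ E) (hj1 : 1 ≤ j) (hzk : z ≤ k ^ (3 * E))
    (hk3 : 3 ≤ k) (hΔk : Δ ≤ k) (hC : C = 1 + (6 * E + 3) * 112 * j) :
    2 * (z + 1 + k * Δ) ^ 2 ≤ k ^ (C * k) := by
  have hk1 : 1 ≤ k := by omega
  have hkk : k ^ 2 ≤ k ^ (3 * E + 1) := Nat.pow_le_pow_right hk1 (by omega)
  have h1 : z + 1 ≤ k ^ (3 * E + 1) := by
    have : k ^ (3 * E + 1) = k ^ (3 * E) * k := by ring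
    rw [this]
    have h0 : 1 ≤ k ^ (3 * E) := Nat.one_le_pow _ _ hk1
    nlinarith
  have h2 : k * Δ ≤ k ^ 2 := by
    rw [sq]
    exact Nat.mul_le_mul_left k hΔk
  have h3 : z + 1 + k * Δ ≤ k ^ (3 * E + 2) := by
    have e : k ^ (3 * E + 2) = k ^ (3 * E + 1) * k := by ring
    rw [e]
    have h0 : 1 ≤ k ^ (3 * E + 1) := Nat.one_le_pow _ _ hk1
    nlinarith
  have h4 : (z + 1 + k * Δ) ^ 2 ≤ k ^ (6 * E + 4) := by
    calc (z + 1 + k * Δ) ^ 2 ≤ (k ^ (3 * E + 2)) ^ 2 := Nat.pow_le_pow_left h3 2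
      _ = k ^ (6 * E + 4) := by rw [← pow_mul]; ring_nf
  have h5 : 2 * (z + 1 + k * Δ) ^ 2 ≤ k ^ (6 * E + 5) := by
    have e : k ^ (6 * E + 5) = k ^ (6 * E + 4) * k := by ring
    rw [e]
    have : 2 ≤ k := by omega
    nlinarith
  refine h5.trans (Nat.pow_le_pow_right hk1 ?_)
  have h6 : 6 * E + 5 ≤ C := by
    rw [hC]
    have h7 : 1 ≤ 112 * j := by omega
    have : (6 * E + 3) * 1 ≤ (6 * E + 3) * (112 * j) := Nat.mul_le_mul_left _ h7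
    have e : (6 * E + 3) * 112 * j = (6 * E + 3) * (112 * j) := by ring
    have : 6 * E + 3 ≤ (6 * E + 3) * 112 * j := by rw [e]; omega
    have h9 : 2 ≤ (6 * E + 3) * 112 * j - (6 * E + 3) ∨ True := Or.inr trivial
    have h10 : (6 * E + 3) * 2 ≤ (6 * E + 3) * (112 * j) :=
      Nat.mul_le_mul_left _ (by omega)
    rw [e]
    omega
  calc 6 * E + 5 ≤ C := h6
    _ = C * 1 := (mul_one C).symm
    _ ≤ C * k := Nat.mul_le_mul_left C hk1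

/-- The exponential bookkeeping for the final bound. -/
lemma exp_bookkeeping (Ns Ex P L Err X G : ℝ) (hNs0 : 0 ≤ Ns) (hL0 : 0 ≤ L)
    (hEx0 : 0 ≤ Ex) (hNsX : Ns * X ≤ Ex) (hG : G * Ex = 1)
    (hErr : Err ≤ P * (3 * L)) (hW : 3 * Ns * P * G ≤ L) :
    Ns * (L ^ 2 * (2 * X) + Err) ≤ 3 * L ^ 2 * Ex := by
  have h1 : Ns * Err ≤ 3 * Ns * P * L := by
    calc Ns * Err ≤ Ns * (P * (3 * L)) := mul_le_mul_of_nonneg_left hErr hNs0
      _ = 3 * Ns * P * L := by ring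
  have h2 : 3 * Ns * P ≤ L * Ex := by
    calc 3 * Ns * P = 3 * Ns * P * (G * Ex) := by rw [hG, mul_one]
      _ = (3 * Ns * P * G) * Ex := by ring
      _ ≤ L * Ex := mul_le_mul_of_nonneg_right hW hEx0
  have h3 : Ns * Err ≤ L ^ 2 * Ex := by
    calc Ns * Err ≤ 3 * Ns * P * L := h1
      _ ≤ (L * Ex) * L := mul_le_mul_of_nonneg_right h2 hL0
      _ = L ^ 2 * Ex := by ring
  have h4 : Ns * (L ^ 2 * (2 * X)) = 2 * L ^ 2 * (Ns * X) := by ring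
  have h5 : 2 * L ^ 2 * (Ns * X) ≤ 2 * L ^ 2 * Ex :=
    mul_le_mul_of_nonneg_left hNsX (by positivity)
  rw [mul_add, h4]
  linarith

/-- The main counting theorem. -/
theorem core_count (Δ : ℕ) (hΔ : 1 ≤ Δ) :
    ∃ C k₀ : ℕ, 1 ≤ C ∧ 1 ≤ k₀ ∧ ∀ k : ℕ, k₀ ≤ k → ∃ (S : Finset ℕ) (z : ℕ),
      (∀ p ∈ S, p.Prime ∧ p ≤ z) ∧ 2 * (z + 1 + k * Δ) ^ 2 ≤ k ^ (C * k) ∧
      ∀ (L : ℕ), k ^ (C * k) ≤ L → ∀ A B : ℤ, ∀ U : Finset (ℤ × ℤ),
        (∀ w ∈ U, w ∈ Ico A (A + L) ×ˢ Ico B (B + L) ∧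
          ∃ s ∈ Fintype.piFinset (fun _ : Fin k => stepBox Δ),
            Set.InjOn (off s) (Set.Iic k) ∧ ∀ p ∈ S, ∀ j ≤ k,
              (((w.1 + (off s j).1 : ℤ) : ZMod p)) ^ 2 +
                (((w.2 + (off s j).2 : ℤ) : ZMod p)) ^ 2 ≠ 0) →
        (U.card : ℝ) ≤ 3 * (L : ℝ) ^ 2 * Real.exp (-(2 * ((k : ℝ) + 1))) := by
  obtain ⟨Y₁, hY₁2, hY₁⟩ := blockSum_iter
  obtain ⟨Y₂, hY₂2, hY₂⟩ := blockSum_iter_upper
  obtain ⟨lg, hlg⟩ : ∃ lg : ℝ, lg = Real.log ((2 * Δ + 1 : ℕ) : ℝ) := ⟨_, rfl⟩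
  have hlg0 : 0 ≤ lg := by
    rw [hlg]
    exact Real.log_natCast_nonneg _
  obtain ⟨τ, hτ⟩ : ∃ τ : ℝ, τ = lg + 1 := ⟨_, rfl⟩
  have hτ0 : 0 < τ := by linarith
  obtain ⟨j, hj⟩ : ∃ j : ℕ, j = ⌈4 * τ⌉₊ := ⟨_, rfl⟩
  have hjτ : 4 * τ ≤ (j : ℝ) := by
    rw [hj]
    exact Nat.le_ceil _
  have hj1 : 1 ≤ j := by
    have : (0 : ℝ) < j := by linarith
    exact_mod_cast this
  obtain ⟨E, hE⟩ : ∃ E : ℕ, E = 8 ^ j := ⟨_, rfl⟩
  have hE1 : 1 ≤ E := by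
    rw [hE]
    exact Nat.one_le_pow _ _ (by norm_num)
  obtain ⟨C, hC⟩ : ∃ C : ℕ, C = 1 + (6 * E + 3) * 112 * j := ⟨_, rfl⟩
  obtain ⟨k₀, hk₀⟩ : ∃ k₀ : ℕ, k₀ = Y₁ + Y₂ + 3 + 8 * Δ ^ 2 + 243 * (2 * Δ + 1) ^ 2 := ⟨_, rfl⟩
  refine ⟨C, k₀, by omega, by omega, fun k hk => ?_⟩
  have hk3 : 3 ≤ k := by omega
  have hk1 : 1 ≤ k := by omega
  have hkΔ : 8 * Δ ^ 2 ≤ k := by omega
  have hkbig : 243 * (2 * Δ + 1) ^ 2 ≤ k := by omega
  have hΔ2 : 1 ≤ Δ ^ 2 := Nat.one_le_pow _ _ (by omega)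
  have hΔk : Δ ≤ k := by
    have : Δ ≤ Δ ^ 2 := by
      rw [sq]
      exact Nat.le_mul_of_pos_left Δ (by omega)
    omega
  obtain ⟨Y, hY⟩ : ∃ Y : ℕ, Y = 8 * k ^ 2 * Δ ^ 2 := ⟨_, rfl⟩
  have hYk : k ≤ Y := by
    have h3 : Y = k * (k * (8 * Δ ^ 2)) := by rw [hY]; ring
    rw [h3]
    apply Nat.le_mul_of_pos_right k
    positivity
  have hYk3 : Y ≤ k ^ 3 := by
    have h3 : Y = k ^ 2 * (8 * Δ ^ 2) := by rw [hY]; ring
    rw [h3]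
    have : k ^ 3 = k ^ 2 * k := by ring
    rw [this]
    exact Nat.mul_le_mul_left _ hkΔ
  obtain ⟨z, hz⟩ : ∃ z : ℕ, z = Y ^ E := ⟨_, rfl⟩
  have hY1 : 1 ≤ Y := le_trans hk1 hYk
  have hz1 : 1 ≤ z := by
    rw [hz]
    exact Nat.one_le_pow _ _ hY1
  have hzk : z ≤ k ^ (3 * E) := by
    rw [hz, pow_mul]
    exact Nat.pow_le_pow_left hYk3 E
  obtain ⟨S, hS⟩ : ∃ S : Finset ℕ, S = (Ioc Y z).filter (fun p => p.Prime ∧ p % 4 = 1) := ⟨_, rfl⟩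
  have hSmem : ∀ p ∈ S, p.Prime ∧ p % 4 = 1 ∧ p ≤ z ∧ Y < p := by
    intro p hp
    rw [hS] at hp
    have h := Finset.mem_filter.mp hp
    have h2 := Finset.mem_Ioc.mp h.1
    exact ⟨h.2.1, h.2.2, h2.2, h2.1⟩
  have hσeq : recipSum S = blockSum Y (Y ^ (8 ^ j)) := by
    unfold recipSum blockSum
    rw [hS, hz, hE]
  have hσ₁ : (j : ℝ) / 4 ≤ recipSum S := by
    rw [hσeq]
    exact hY₁ Y (by omega) j
  have hσ₂ : recipSum S ≤ 8 * (j : ℝ) := by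
    rw [hσeq]
    exact hY₂ Y (by omega) j
  have hj0 : (0 : ℝ) < j := by exact_mod_cast hj1
  obtain ⟨σ, hσ⟩ : ∃ σ : ℝ, σ = recipSum S := ⟨_, rfl⟩
  rw [← hσ] at hσ₁ hσ₂
  have hτσ : τ ≤ σ := by linarith
  obtain ⟨ℓ, hℓ⟩ : ∃ ℓ : ℕ, ℓ = 56 * j * (k + 1) := ⟨_, rfl⟩
  have hℓeven : Even ℓ := ⟨28 * j * (k + 1), by rw [hℓ]; ring⟩
  refine ⟨S, z, fun p hp => ⟨(hSmem p hp).1, (hSmem p hp).2.2.1⟩,
    size_bookkeeping Δ E j k z C hE1 hj1 hzk hk3 hΔk hC, ?_⟩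
  intro L hL A B U hU
  have hK1 : (1 : ℝ) ≤ (k : ℝ) := by exact_mod_cast hk1
  have hk1' : (0 : ℝ) ≤ (k : ℝ) + 1 := by linarith
  obtain ⟨X, hX⟩ : ∃ X : ℝ, X = Real.exp (-(2 * ((k : ℝ) + 1) * τ)) := ⟨_, rfl⟩
  have hLpos : (0 : ℝ) ≤ (L : ℝ) := Nat.cast_nonneg L
  obtain ⟨Err, hErr⟩ : ∃ Err : ℝ,
      Err = ((z : ℝ) + 1) ^ ℓ * (2 * ((k : ℝ) + 1)) ^ ℓ * (2 * (L : ℝ) + (z : ℝ) ^ ℓ) := ⟨_, rfl⟩
  have hErr0 : 0 ≤ Err := by
    rw [hErr]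
    positivity
  have hX0 : 0 < X := by
    rw [hX]
    exact Real.exp_pos _
  -- the bound for one shape
  have hone : ∀ s ∈ Fintype.piFinset (fun _ : Fin k => stepBox Δ), Set.InjOn (off s) (Set.Iic k) →
      ∀ U' : Finset (ℤ × ℤ), (∀ w ∈ U', w ∈ Ico A (A + L) ×ˢ Ico B (B + L) ∧
        ∀ p ∈ S, ∀ o ∈ (range (k + 1)).image (off s),
            (((w.1 + o.1 : ℤ) : ZMod p)) ^ 2 + (((w.2 + o.2 : ℤ) : ZMod p)) ^ 2 ≠ 0) →
      (U'.card : ℝ) ≤ (L : ℝ) ^ 2 * (2 * X) + Err := by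
    intro s hs hinj U' hU'
    have hs' : ∀ i, s i ∈ stepBox Δ := fun i => Fintype.mem_piFinset.mp hs i
    have hOcard : ((range (k + 1)).image (off s)).card = k + 1 := by
      rw [Finset.card_image_of_injOn, Finset.card_range]
      intro a ha b hb hab
      apply hinj _ _ hab
      · simp only [Set.mem_Iic]
        have := Finset.mem_range.mp (Finset.mem_coe.mp ha)
        omega
      · simp only [Set.mem_Iic]
        have := Finset.mem_range.mp (Finset.mem_coe.mp hb)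
        omega
    have hOnorm : ∀ p ∈ S, ∀ o ∈ (range (k + 1)).image (off s),
        ∀ o' ∈ (range (k + 1)).image (off s), o ≠ o' →
        (o.1 - o'.1) ^ 2 + (o.2 - o'.2) ^ 2 < (p : ℤ) := by
      intro p hp o ho o' ho' _
      obtain ⟨a, ha, rfl⟩ := Finset.mem_image.mp ho
      obtain ⟨b, hb, rfl⟩ := Finset.mem_image.mp ho'
      have ha' := Finset.mem_range.mp ha
      have hb' := Finset.mem_range.mp hb
      have h1 := off_diff_norm Δ s hs' a b (by omega) (by omega)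
      have h2 : (Y : ℤ) < (p : ℤ) := by exact_mod_cast (hSmem p hp).2.2.2
      have h3 : (Y : ℤ) = 8 * (k : ℤ) ^ 2 * (Δ : ℤ) ^ 2 := by
        rw [hY]
        push_cast
        ring
      linarith
    have hac := alive_count_subset S z k hz1
      (fun p hp => ⟨(hSmem p hp).1, (hSmem p hp).2.1, (hSmem p hp).2.2.1⟩)
      ((range (k + 1)).image (off s)) hOcard hOnorm A B L ℓ hℓeven U' hU'
    rw [← hσ] at hac
    refine hac.trans ?_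
    rw [← hErr]
    apply add_le_add _ le_rfl
    apply mul_le_mul_of_nonneg_left _ (by positivity)
    have e1 : Real.exp (-(2 * ((k : ℝ) + 1) * σ)) ≤ X := by
      rw [hX]
      apply Real.exp_le_exp.mpr
      have := mul_le_mul_of_nonneg_left hτσ (mul_nonneg (by norm_num : (0:ℝ) ≤ 2) hk1')
      linarith
    have e2 : Real.exp (Real.exp 1 * (2 * ((k : ℝ) + 1) * σ) - (ℓ + 1)) ≤ X := by
      rw [hX]
      apply Real.exp_le_exp.mpr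
      have he : Real.exp 1 ≤ 3 := by
        have := Real.exp_one_lt_d9
        linarith
      have hℓcast : (ℓ : ℝ) = 56 * (j : ℝ) * ((k : ℝ) + 1) := by
        rw [hℓ]
        push_cast
        rfl
      have hs0 : 0 ≤ σ := by linarith
      have h1 : Real.exp 1 * (2 * ((k : ℝ) + 1) * σ) ≤ 3 * (2 * ((k : ℝ) + 1) * (8 * (j : ℝ))) := by
        apply mul_le_mul he _ (by positivity) (by norm_num)
        exact mul_le_mul_of_nonneg_left hσ₂ (by positivity)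
      have h2 : 2 * ((k : ℝ) + 1) * τ ≤ 2 * ((k : ℝ) + 1) * ((j : ℝ)) := by
        apply mul_le_mul_of_nonneg_left _ (by positivity)
        linarith
      rw [hℓcast]
      have h3 : 0 ≤ ((k : ℝ) + 1) * (j : ℝ) := by positivity
      nlinarith
    linarith
  -- union bound
  classical
  obtain ⟨Shapes, hShapes⟩ : ∃ Shapes : Finset (Fin k → ℤ × ℤ), Shapes =
      (Fintype.piFinset (fun _ : Fin k => stepBox Δ)).filter
        (fun s => Set.InjOn (off s) (Set.Iic k)) := ⟨_, rfl⟩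
  let Al : (Fin k → ℤ × ℤ) → Finset (ℤ × ℤ) := fun s =>
    U.filter (fun w : ℤ × ℤ => alivePred S ((range (k + 1)).image (off s)) w)
  have hsubset : U ⊆ Shapes.biUnion Al := by
    intro w hw
    obtain ⟨_, s, hs, hinj, hal⟩ := hU w hw
    rw [Finset.mem_biUnion]
    refine ⟨s, ?_, ?_⟩
    · rw [hShapes]
      exact Finset.mem_filter.mpr ⟨hs, hinj⟩
    · refine Finset.mem_filter.mpr ⟨hw, fun p hp o ho => ?_⟩
      obtain ⟨a, ha, rfl⟩ := Finset.mem_image.mp ho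
      exact hal p hp a (by have := Finset.mem_range.mp ha; omega)
  have hcardNs : (Fintype.piFinset (fun _ : Fin k => stepBox Δ)).card = (2 * Δ + 1) ^ (2 * k) := by
    rw [Fintype.card_piFinset]
    simp only [Finset.prod_const, Finset.card_univ, Fintype.card_fin, card_stepBox]
    rw [← pow_mul]
  obtain ⟨Ns, hNs⟩ : ∃ Ns : ℝ, Ns = ((2 * Δ + 1 : ℕ) : ℝ) ^ (2 * k) := ⟨_, rfl⟩
  have hNs0 : 0 ≤ Ns := by
    rw [hNs]
    positivity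
  have hShapesCard : (Shapes.card : ℝ) ≤ Ns := by
    have h1 : Shapes.card ≤ (Fintype.piFinset (fun _ : Fin k => stepBox Δ)).card := by
      rw [hShapes]
      exact Finset.card_filter_le _ _
    rw [hcardNs] at h1
    rw [hNs]
    exact_mod_cast h1
  have hUbd : (U.card : ℝ) ≤ Ns * ((L : ℝ) ^ 2 * (2 * X) + Err) := by
    have h1 := Finset.card_le_card hsubset
    have h2 := Finset.card_biUnion_le (s := Shapes) (t := Al)
    have hbound : (0 : ℝ) ≤ (L : ℝ) ^ 2 * (2 * X) + Err := by positivity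
    calc (U.card : ℝ) ≤ ((Shapes.biUnion Al).card : ℝ) := by exact_mod_cast h1
      _ ≤ ((∑ s ∈ Shapes, (Al s).card : ℕ) : ℝ) := by exact_mod_cast h2
      _ = ∑ s ∈ Shapes, ((Al s).card : ℝ) := by push_cast; rfl
      _ ≤ ∑ _s ∈ Shapes, ((L : ℝ) ^ 2 * (2 * X) + Err) := by
          apply Finset.sum_le_sum
          intro s hs
          rw [hShapes] at hs
          have hs' := Finset.mem_filter.mp hs
          refine hone s hs'.1 hs'.2 (Al s) (fun w hw => ?_)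
          have hw' := Finset.mem_filter.mp hw
          exact ⟨(hU w hw'.1).1, hw'.2⟩
      _ = (Shapes.card : ℝ) * ((L : ℝ) ^ 2 * (2 * X) + Err) := by
          rw [Finset.sum_const, nsmul_eq_mul]
      _ ≤ Ns * ((L : ℝ) ^ 2 * (2 * X) + Err) :=
          mul_le_mul_of_nonneg_right hShapesCard hbound
  refine hUbd.trans ?_
  -- the exponential bookkeeping
  have hNsexp : Ns = Real.exp (2 * (k : ℝ) * lg) := by
    have hpos : (0 : ℝ) < ((2 * Δ + 1 : ℕ) : ℝ) := by positivity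
    calc Ns = (Real.exp lg) ^ (2 * k) := by rw [hNs, hlg, Real.exp_log hpos]
      _ = Real.exp (((2 * k : ℕ) : ℝ) * lg) := (Real.exp_nat_mul _ _).symm
      _ = Real.exp (2 * (k : ℝ) * lg) := by push_cast; rfl
  have hNsX : Ns * X ≤ Real.exp (-(2 * ((k : ℝ) + 1))) := by
    rw [hNsexp, hX, ← Real.exp_add]
    apply Real.exp_le_exp.mpr
    rw [hτ]
    nlinarith
  have hWbound := power_bookkeeping Δ E j k z ℓ C hE1 hzk hk3 hkbig hℓ hC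
  rw [← hNs] at hWbound
  have hL1 : (1 : ℝ) ≤ (L : ℝ) := by
    have h1 : 1 ≤ k ^ (C * k) := Nat.one_le_pow _ _ hk1
    exact_mod_cast le_trans h1 hL
  have hzℓ : (1 : ℝ) ≤ (z : ℝ) ^ ℓ := one_le_pow₀ (by exact_mod_cast hz1)
  obtain ⟨P, hP⟩ : ∃ P : ℝ, P = ((z : ℝ) + 1) ^ ℓ * (2 * ((k : ℝ) + 1)) ^ ℓ * (z : ℝ) ^ ℓ := ⟨_, rfl⟩
  have hP0 : 0 ≤ P := by
    rw [hP]
    positivity
  have hErrle : Err ≤ P * (3 * (L : ℝ)) := by
    rw [hErr, hP]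
    have h0 : 0 ≤ ((z : ℝ) + 1) ^ ℓ * (2 * ((k : ℝ) + 1)) ^ ℓ := by positivity
    have h1 : 2 * (L : ℝ) + (z : ℝ) ^ ℓ ≤ (z : ℝ) ^ ℓ * (3 * (L : ℝ)) := by nlinarith
    calc ((z : ℝ) + 1) ^ ℓ * (2 * ((k : ℝ) + 1)) ^ ℓ * (2 * (L : ℝ) + (z : ℝ) ^ ℓ)
        ≤ ((z : ℝ) + 1) ^ ℓ * (2 * ((k : ℝ) + 1)) ^ ℓ * ((z : ℝ) ^ ℓ * (3 * (L : ℝ))) :=
          mul_le_mul_of_nonneg_left h1 h0
      _ = ((z : ℝ) + 1) ^ ℓ * (2 * ((k : ℝ) + 1)) ^ ℓ * (z : ℝ) ^ ℓ * (3 * (L : ℝ)) := by ring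
  have hG : Real.exp (2 * ((k : ℝ) + 1)) * Real.exp (-(2 * ((k : ℝ) + 1))) = 1 := by
    rw [← Real.exp_add]
    simp
  have hLK : (k : ℝ) ^ (C * k) ≤ (L : ℝ) := by exact_mod_cast hL
  have hW : 3 * Ns * P * Real.exp (2 * ((k : ℝ) + 1)) ≤ (L : ℝ) := by
    refine le_trans (le_of_eq ?_) (hWbound.trans hLK)
    rw [hP]
    ring
  exact exp_bookkeeping Ns _ P (L : ℝ) Err X _ hNs0 hLpos (Real.exp_pos _).le hNsX hG hErrle hW

end Vale.Agent.Lib.P015
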