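import Mathlib

/-!
The graph of the Gaussian moat problem.
-/

namespace Vale.Agent.Lib.P015

/-- The graph `G_D`: its vertices are the Gaussian primes (irreducible elements of `ℤ[i]`, all
associates included), and two distinct primes `z, w` are adjacent when their Euclidean distance
is at most `D`, that is `(re z - re w)^2 + (im z - im w)^2 ≤ D^2`. -/
def moatGraph (D : ℝ) : SimpleGraph {z : GaussianInt // Irreducible z} where
  Adj z w := z ≠ w ∧
    ((z.1.re : ℝ) - w.1.re) ^ 2 + ((z.1.im : ℝ) - w.1.im) ^ 2 ≤ D ^ 2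
  symm := ⟨fun z w h => by
    refine ⟨h.1.symm, ?_⟩
    have e1 : ((w.1.re : ℝ) - z.1.re) ^ 2 = ((z.1.re : ℝ) - w.1.re) ^ 2 := by ring
    have e2 : ((w.1.im : ℝ) - z.1.im) ^ 2 = ((z.1.im : ℝ) - w.1.im) ^ 2 := by ring
    rw [e1, e2]
    exact h.2⟩
  loopless := ⟨fun z h => h.1 rfl⟩

end Vale.Agent.Lib.P015
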