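import Mathlib
import Vale.Agent.Lib.P015.Defs
import Vale.Agent.Lib.P015.Core

/-!
From the counting theorem to the graph `G_D`: long simple paths are rare.
-/

namespace Vale.Agent.Lib.P015

open Finset

/-- A Gaussian prime whose rational prime divisors of the norm are small. -/
lemma norm_le_of_dvd (z : GaussianInt) (hz : Irreducible z) (p : ℕ) (hp : p.Prime)
    (hdvd : (p : ℤ) ∣ z.re ^ 2 + z.im ^ 2) : z.re ^ 2 + z.im ^ 2 ≤ (p : ℤ) ^ 2 := by
  have hnorm : Zsqrtd.norm z = z.re ^ 2 + z.im ^ 2 := by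
    rw [Zsqrtd.norm_def]
    ring
  have hzprime : Prime z := hz.prime
  set P : GaussianInt := (p : GaussianInt) with hP
  have hNP : Zsqrtd.norm P = (p : ℤ) * p := Zsqrtd.norm_natCast p
  have hpos : (0 : ℤ) < p := by exact_mod_cast hp.pos
  have hP0 : P ≠ 0 := by
    intro h
    rw [h] at hNP
    simp at hNP
    exact hp.ne_zero hNP
  have hPunit : ¬ IsUnit P := by
    intro h
    have h1 := Zsqrtd.norm_eq_one_iff.mpr h
    rw [hNP] at h1
    have h2 : ((p : ℤ) * p).natAbs = p * p := by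
      rw [Int.natAbs_mul, Int.natAbs_natCast]
    rw [h2] at h1
    have := hp.two_le
    nlinarith
  obtain ⟨q, hq, hqP⟩ := WfDvdMonoid.exists_irreducible_factor hPunit hP0
  have hqprime : Prime q := hq.prime
  -- `P` divides `z * star z`
  have hPdvd : P ∣ z * star z := by
    rw [← Zsqrtd.norm_eq_mul_conj, hnorm]
    obtain ⟨t, ht⟩ := hdvd
    refine ⟨(t : GaussianInt), ?_⟩
    rw [ht, hP]
    push_cast
    rfl
  have hqdvd : q ∣ z * star z := hqP.trans hPdvd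
  -- reduce to: some associate of `z` or its conjugate divides `P`
  have hkey : ∃ y : GaussianInt, Zsqrtd.norm y = Zsqrtd.norm z ∧ y ∣ P := by
    rcases hqprime.dvd_or_dvd hqdvd with h | h
    · have hassoc : Associated q z := hq.associated_of_dvd hz h
      exact ⟨z, rfl, hassoc.symm.dvd.trans hqP⟩
    · have hzs : Irreducible (star z) :=
        (MulEquiv.irreducible_iff (starRingAut : GaussianInt ≃+* GaussianInt)).mpr hz
      have hassoc : Associated q (star z) := hq.associated_of_dvd hzs h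
      exact ⟨star z, Zsqrtd.norm_conj z, hassoc.symm.dvd.trans hqP⟩
  obtain ⟨y, hy, hyP⟩ := hkey
  have hN : Zsqrtd.norm y ∣ Zsqrtd.norm P := by
    obtain ⟨t, ht⟩ := hyP
    refine ⟨Zsqrtd.norm t, ?_⟩
    rw [ht, Zsqrtd.norm_mul]
  rw [hy, hnorm, hNP] at hN
  have hle := Int.le_of_dvd (by positivity) hN
  rw [sq (p : ℤ)]
  exact hle

/-- The vertex type. -/
abbrev GP := {z : GaussianInt // Irreducible z}

/-- The squared modulus. -/
def nrm (z : GP) : ℤ := z.1.re ^ 2 + z.1.im ^ 2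

lemma adj_int {D : ℝ} (hD : 0 < D) {Δ : ℕ} (hΔ : D ≤ Δ) {a b : GP} (h : (moatGraph D).Adj a b) :
    (a.1.re - b.1.re) ^ 2 + (a.1.im - b.1.im) ^ 2 ≤ (Δ : ℤ) ^ 2 := by
  have h1 := h.2
  have h2 : D ^ 2 ≤ (Δ : ℝ) ^ 2 := pow_le_pow_left₀ hD.le hΔ 2
  have h3 : (((a.1.re - b.1.re) ^ 2 + (a.1.im - b.1.im) ^ 2 : ℤ) : ℝ) ≤ (((Δ : ℤ) ^ 2 : ℤ) : ℝ) := by
    push_cast
    linarith
  exact_mod_cast h3

lemma abs_le_of_sq_le_sq_nat {x : ℤ} {Δ : ℕ} (h : x ^ 2 ≤ (Δ : ℤ) ^ 2) : |x| ≤ Δ :=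
  abs_le_of_sq_le_sq h (by positivity)

lemma step_mem {D : ℝ} (hD : 0 < D) {Δ : ℕ} (hΔ : D ≤ Δ) {a b : GP} (h : (moatGraph D).Adj a b) :
    (b.1.re - a.1.re, b.1.im - a.1.im) ∈ stepBox Δ := by
  have h1 := adj_int hD hΔ h
  have h2 : (b.1.re - a.1.re) ^ 2 ≤ (Δ : ℤ) ^ 2 := by nlinarith [sq_nonneg (a.1.im - b.1.im)]
  have h3 : (b.1.im - a.1.im) ^ 2 ≤ (Δ : ℤ) ^ 2 := by nlinarith [sq_nonneg (a.1.re - b.1.re)]
  have h4 := abs_le.mp (abs_le_of_sq_le_sq_nat h2)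
  have h5 := abs_le.mp (abs_le_of_sq_le_sq_nat h3)
  unfold stepBox
  rw [Finset.mem_product, Finset.mem_Icc, Finset.mem_Icc]
  exact ⟨h4, h5⟩

/-- The radial growth along one edge. -/
lemma nrm_step {D : ℝ} (hD : 0 < D) {Δ : ℕ} (hΔ : D ≤ Δ) {a b : GP} (h : (moatGraph D).Adj a b)
    {A : ℤ} (hA : 0 ≤ A) (ha : nrm a < A ^ 2) : nrm b < (A + Δ) ^ 2 := by
  have h1 := adj_int hD hΔ h
  unfold nrm at ha ⊢
  set x := a.1.re
  set y := a.1.im
  set u := b.1.re - x with hu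
  set v := b.1.im - y with hv
  have hbre : b.1.re = x + u := by rw [hu]; ring
  have hbim : b.1.im = y + v := by rw [hv]; ring
  rw [hbre, hbim]
  have h2 : u ^ 2 + v ^ 2 ≤ (Δ : ℤ) ^ 2 := by
    have e1 : u ^ 2 = (x - b.1.re) ^ 2 := by rw [hu]; ring
    have e2 : v ^ 2 = (y - b.1.im) ^ 2 := by rw [hv]; ring
    rw [e1, e2]
    exact h1
  -- Cauchy inequality
  have hcs : (x * u + y * v) ^ 2 ≤ (A * Δ) ^ 2 := by
    have h3 : (x * u + y * v) ^ 2 + (x * v - y * u) ^ 2 = (x ^ 2 + y ^ 2) * (u ^ 2 + v ^ 2) := by ring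
    have h4 : (x ^ 2 + y ^ 2) * (u ^ 2 + v ^ 2) ≤ A ^ 2 * (Δ : ℤ) ^ 2 := by
      apply mul_le_mul ha.le h2 (by positivity) (by positivity)
    nlinarith [sq_nonneg (x * v - y * u)]
  have hAΔ : 0 ≤ A * Δ := by positivity
  have h5 : x * u + y * v ≤ A * Δ := by
    have := abs_le_of_sq_le_sq hcs hAΔ
    exact (abs_le.mp this).2
  nlinarith

/-- The radial growth along a walk. -/
lemma nrm_walk {D : ℝ} (hD : 0 < D) {Δ : ℕ} (hΔ : D ≤ Δ) {u v : GP}
    (p : (moatGraph D).Walk u v) (j m : ℕ) (hjm : j + m ≤ p.length)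
    {A : ℤ} (hA : 0 ≤ A) (ha : nrm (p.getVert j) < A ^ 2) :
    nrm (p.getVert (j + m)) < (A + m * Δ) ^ 2 := by
  induction m with
  | zero =>
    simpa using ha
  | succ m ih =>
    have h1 := ih (by omega)
    have h2 : (moatGraph D).Adj (p.getVert (j + m)) (p.getVert (j + m + 1)) :=
      p.adj_getVert_succ (by omega)
    have h3 := nrm_step hD hΔ h2 (A := A + m * Δ) (by positivity) h1
    have e : j + (m + 1) = j + m + 1 := by ring
    rw [e]
    have e2 : A + ((m + 1 : ℕ) : ℤ) * Δ = A + m * Δ + Δ := by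
      push_cast
      ring
    rw [e2]
    exact h3

/-- The starting point of a simple path with `k` edges. -/
def IsLongStart (D : ℝ) (k : ℕ) (z : GP) : Prop :=
  ∃ g : ℕ → GP, g 0 = z ∧ (∀ i, i < k → (moatGraph D).Adj (g i) (g (i + 1))) ∧
    ∀ i, i ≤ k → ∀ j, j ≤ k → g i = g j → i = j

lemma isLongStart_of_path {D : ℝ} {u v : GP} (p : (moatGraph D).Walk u v) (hp : p.IsPath)
    (j k : ℕ) (hjk : j + k ≤ p.length) : IsLongStart D k (p.getVert j) := by
  refine ⟨fun i => p.getVert (j + i), by simp, fun i hi => ?_, fun a ha b hb hab => ?_⟩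
  · have := p.adj_getVert_succ (i := j + i) (by omega)
    exact this
  · have := hp.getVert_injOn (x₁ := j + a) (x₂ := j + b) (by
      rw [Set.mem_ofPred_eq]; omega) (by rw [Set.mem_ofPred_eq]; omega) hab
    omega

/-- The coordinates of the vertices of a long path in terms of its steps. -/
lemma shape_of_longStart {D : ℝ} (hD : 0 < D) {Δ : ℕ} (hΔ : D ≤ Δ) {k : ℕ} {z : GP}
    (h : IsLongStart D k z) :
    ∃ s ∈ Fintype.piFinset (fun _ : Fin k => stepBox Δ), Set.InjOn (off s) (Set.Iic k) ∧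
      ∀ j, j ≤ k → ∃ x : GP, x.1.re = z.1.re + (off s j).1 ∧ x.1.im = z.1.im + (off s j).2 := by
  obtain ⟨g, hg0, hadj, hinj⟩ := h
  let s : Fin k → ℤ × ℤ := fun i =>
    ((g (i + 1)).1.re - (g i).1.re, (g (i + 1)).1.im - (g i).1.im)
  have hs : ∀ i, s i ∈ stepBox Δ := fun i => step_mem hD hΔ (hadj i i.2)
  have hcoord : ∀ j, j ≤ k → (g j).1.re = z.1.re + (off s j).1 ∧ (g j).1.im = z.1.im + (off s j).2 := by
    intro j
    induction j with
    | zero =>
      intro _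
      rw [hg0, off_zero]
      simp
    | succ j ih =>
      intro hj
      have hj' : j < k := by omega
      obtain ⟨h1, h2⟩ := ih (by omega)
      rw [off_succ s j hj']
      constructor
      · show (g (j + 1)).1.re = z.1.re + ((off s j).1 + (s ⟨j, hj'⟩).1)
        simp only [s]
        rw [add_comm (off s j).1, ← add_assoc]
        linarith
      · show (g (j + 1)).1.im = z.1.im + ((off s j).2 + (s ⟨j, hj'⟩).2)
        simp only [s]
        linarith
  refine ⟨s, Fintype.mem_piFinset.mpr hs, ?_, fun j hj => ⟨g j, hcoord j hj⟩⟩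
  intro a ha b hb hab
  have ha' : a ≤ k := ha
  have hb' : b ≤ k := hb
  obtain ⟨h1, h2⟩ := hcoord a ha'
  obtain ⟨h3, h4⟩ := hcoord b hb'
  apply hinj a ha' b hb'
  apply Subtype.ext
  apply Zsqrtd.ext
  · rw [h1, h3, hab]
  · rw [h2, h4, hab]

/-- A lower bound for the norm after a bounded translation. -/
lemma norm_lower (a b u v W K : ℤ) (hW : 0 ≤ W) (hK : 0 ≤ K) (hu : |u| ≤ K) (hv : |v| ≤ K)
    (hl : 2 * (W + K) ^ 2 ≤ a ^ 2 + b ^ 2) : W ^ 2 ≤ (a + u) ^ 2 + (b + v) ^ 2 := by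
  have hQ0 : 0 ≤ W + K := by positivity
  have hcases : (W + K) ^ 2 ≤ a ^ 2 ∨ (W + K) ^ 2 ≤ b ^ 2 := by
    by_contra hcon
    push Not at hcon
    nlinarith [hcon.1, hcon.2]
  rcases hcases with hc | hc
  · have h1 : W + K ≤ |a| := by
      have := sq_le_sq.mp hc
      rwa [abs_of_nonneg hQ0] at this
    have h3 : W ≤ |a + u| := by
      have := abs_sub_abs_le_abs_sub a (-u)
      rw [abs_neg, sub_neg_eq_add] at this
      linarith
    have h4 : W ^ 2 ≤ (a + u) ^ 2 := by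
      rw [← sq_abs (a + u)]
      exact pow_le_pow_left₀ hW h3 2
    nlinarith [sq_nonneg (b + v)]
  · have h1 : W + K ≤ |b| := by
      have := sq_le_sq.mp hc
      rwa [abs_of_nonneg hQ0] at this
    have h3 : W ≤ |b + v| := by
      have := abs_sub_abs_le_abs_sub b (-v)
      rw [abs_neg, sub_neg_eq_add] at this
      linarith
    have h4 : W ^ 2 ≤ (b + v) ^ 2 := by
      rw [← sq_abs (b + v)]
      exact pow_le_pow_left₀ hW h3 2
    nlinarith [sq_nonneg (a + u)]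

lemma no_sq (m : ℤ) (h0 : 0 ≤ m) (h : (m + 1) ^ 2 ≤ m ^ 2) : False := by
  nlinarith

/-- The counting theorem on the graph. -/
theorem graph_count {D : ℝ} (hD : 0 < D) (Δ : ℕ) (hΔ1 : 1 ≤ Δ) (hΔ : D ≤ Δ) :
    ∃ C k₀ : ℕ, 1 ≤ C ∧ 1 ≤ k₀ ∧ ∀ k : ℕ, k₀ ≤ k → ∀ R T : ℕ, k ^ (C * k) ≤ R →
      k ^ (C * k) ≤ 2 * T + 1 → ∀ U : Finset GP,
      (∀ z ∈ U, |z.1.re| ≤ T ∧ |z.1.im| ≤ T ∧ (R : ℤ) ≤ nrm z ∧ IsLongStart D k z) →
      (U.card : ℝ) ≤ 3 * ((2 * T + 1 : ℕ) : ℝ) ^ 2 * Real.exp (-(2 * ((k : ℝ) + 1))) := by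
  classical
  obtain ⟨C, k₀, hC, hk₀, h⟩ := core_count Δ hΔ1
  refine ⟨C, k₀, hC, hk₀, fun k hk R T hR hT U hU => ?_⟩
  obtain ⟨S, zm, hS, hsize, hcount⟩ := h k hk
  let c : GP → ℤ × ℤ := fun z => (z.1.re, z.1.im)
  have hcinj : Function.Injective c := by
    intro a b hab
    apply Subtype.ext
    apply Zsqrtd.ext
    · exact congrArg Prod.fst hab
    · exact congrArg Prod.snd hab
  have hcard : (U.image c).card = U.card := Finset.card_image_of_injective _ hcinj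
  rw [← hcard]
  apply hcount (2 * T + 1) hT (-(T : ℤ)) (-(T : ℤ)) (U.image c)
  intro w hw
  obtain ⟨z, hz, rfl⟩ := Finset.mem_image.mp hw
  obtain ⟨hre, him, hnrm, hlong⟩ := hU z hz
  have hre' := abs_le.mp hre
  have him' := abs_le.mp him
  refine ⟨?_, ?_⟩
  · rw [Finset.mem_product, Finset.mem_Ico, Finset.mem_Ico]
    simp only [c]
    push_cast
    constructor <;> constructor <;> linarith [hre'.1, hre'.2, him'.1, him'.2]
  · obtain ⟨s, hs, hinj, hx⟩ := shape_of_longStart hD hΔ hlong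
    refine ⟨s, hs, hinj, fun p hp j hj h0 => ?_⟩
    obtain ⟨x, hx1, hx2⟩ := hx j hj
    simp only [c] at h0
    rw [← hx1, ← hx2] at h0
    -- then `p` divides the norm of `x`
    have hdvd : (p : ℤ) ∣ x.1.re ^ 2 + x.1.im ^ 2 := by
      apply (ZMod.intCast_zmod_eq_zero_iff_dvd _ _).mp
      push_cast
      exact h0
    have hle := norm_le_of_dvd x.1 x.2 p (hS p hp).1 hdvd
    have hpzm : (p : ℤ) ≤ zm := by exact_mod_cast (hS p hp).2
    have hppos : (0 : ℤ) ≤ p := by positivity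
    have hp2 : (p : ℤ) ^ 2 ≤ (zm : ℤ) ^ 2 := pow_le_pow_left₀ hppos hpzm 2
    -- a lower bound for the norm of `x`
    have hs' : ∀ i, s i ∈ stepBox Δ := fun i => Fintype.mem_piFinset.mp hs i
    obtain ⟨b1, b2⟩ := off_bound Δ s hs' j hj
    have hjk : (j : ℤ) * Δ ≤ k * Δ := by
      apply mul_le_mul_of_nonneg_right _ (by positivity)
      exact_mod_cast hj
    have hsz : (2 * ((zm : ℤ) + 1 + k * Δ) ^ 2 : ℤ) ≤ (R : ℤ) := by
      have := hsize.trans hR
      exact_mod_cast this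
    have hlarge : 2 * ((zm : ℤ) + 1 + k * Δ) ^ 2 ≤ z.1.re ^ 2 + z.1.im ^ 2 := by
      have : (R : ℤ) ≤ z.1.re ^ 2 + z.1.im ^ 2 := hnrm
      linarith
    have hfinal := norm_lower _ _ (off s j).1 (off s j).2 ((zm : ℤ) + 1) (k * Δ) (by positivity)
      (by positivity) (b1.trans hjk) (b2.trans hjk) hlarge
    rw [← hx1, ← hx2] at hfinal
    exact no_sq ((zm : ℤ)) (by positivity) (hfinal.trans (hle.trans hp2))

end Vale.Agent.Lib.P015
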