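import Mathlib
import Vale.Agent.Lib.P015.Graph

/-!
Parameters, the ring decomposition and the final theorem.
-/

namespace Vale.Agent.Lib.P015

open Finset Filter

/-- `u / log u` tends to infinity. -/
lemma tendsto_div_log : Tendsto (fun u : ℝ => u / Real.log u) atTop atTop := by
  have h1 : Tendsto (fun u : ℝ => Real.log u / u) atTop (nhds 0) := by
    have := Real.isLittleO_log_id_atTop.tendsto_div_nhds_zero
    simpa using this
  have h2 : Tendsto (fun u : ℝ => Real.log u / u) atTop (nhdsWithin 0 (Set.Ioi 0)) := by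
    apply tendsto_nhdsWithin_of_tendsto_nhds_of_eventually_within _ h1
    filter_upwards [eventually_gt_atTop (1 : ℝ)] with u hu
    exact div_pos (Real.log_pos hu) (by linarith)
  have h3 := h2.inv_tendsto_nhdsGT_zero
  refine h3.congr (fun u => ?_)
  simp [inv_div]

/-- The slowly growing quantity of the main theorem. -/
noncomputable def logRatio (R : ℕ) : ℝ := Real.log R / Real.log (Real.log R)

lemma tendsto_logRatio : Tendsto logRatio atTop atTop := by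
  have h1 : Tendsto (fun R : ℕ => Real.log (R : ℝ)) atTop atTop :=
    Real.tendsto_log_atTop.comp tendsto_natCast_atTop_atTop
  exact tendsto_div_log.comp h1

lemma tendsto_loglog : Tendsto (fun R : ℕ => Real.log (Real.log (R : ℝ))) atTop atTop := by
  have h1 : Tendsto (fun R : ℕ => Real.log (R : ℝ)) atTop atTop :=
    Real.tendsto_log_atTop.comp tendsto_natCast_atTop_atTop
  exact Real.tendsto_log_atTop.comp h1

/-- For large `R`, all the numerical requirements hold. -/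
lemma large_R (C : ℕ) (hC : 1 ≤ C) (G : ℝ) : ∃ R₁ : ℕ, 3 ≤ R₁ ∧ ∀ R : ℕ, R₁ ≤ R →
    G ≤ logRatio R / C ∧ 2 ≤ Real.log (Real.log R) ∧
    (((⌊logRatio R / C⌋₊ : ℕ) : ℝ)) ^ (C * ⌊logRatio R / C⌋₊) ≤ R := by
  have hCpos : (0 : ℝ) < C := by exact_mod_cast hC
  have h1 : ∀ᶠ R : ℕ in atTop, G * C ≤ logRatio R := tendsto_logRatio.eventually_ge_atTop _
  have h2 : ∀ᶠ R : ℕ in atTop, (2 : ℝ) ≤ Real.log (Real.log R) :=
    tendsto_loglog.eventually_ge_atTop _
  have h3 : ∀ᶠ R : ℕ in atTop, 3 ≤ R := eventually_ge_atTop 3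
  obtain ⟨R₁, hR₁⟩ := eventually_atTop.mp (h1.and (h2.and h3))
  refine ⟨max R₁ 3, le_max_right _ _, fun R hR => ?_⟩
  obtain ⟨a1, a2, a3⟩ := hR₁ R (le_trans (le_max_left _ _) hR)
  have hG : G ≤ logRatio R / C := by
    rw [le_div_iff₀ hCpos]
    exact a1
  refine ⟨hG, a2, ?_⟩
  have hRreal : (3 : ℝ) ≤ R := by exact_mod_cast a3
  have hRpos : (0 : ℝ) < R := by linarith
  set L1 := Real.log (R : ℝ) with hL1
  set L2 := Real.log L1 with hL2
  have hL1pos : 0 < L1 := Real.log_pos (by linarith)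
  have hL2pos : 0 < L2 := by linarith
  set k := ⌊logRatio R / C⌋₊ with hk
  have hXeq : logRatio R = L1 / L2 := rfl
  have hXnn : 0 ≤ logRatio R := by
    rw [hXeq]
    positivity
  have hfl : (k : ℝ) ≤ logRatio R / C := Nat.floor_le (by positivity)
  have hCk : (C : ℝ) * k ≤ logRatio R := by
    rw [le_div_iff₀ hCpos] at hfl
    linarith
  by_cases hk0 : k = 0
  · rw [hk0]
    simp only [mul_zero, pow_zero]
    have h4 : (1 : ℝ) ≤ R := by linarith
    simpa using h4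
  have hk1 : (1 : ℝ) ≤ k := by exact_mod_cast Nat.one_le_iff_ne_zero.mpr hk0
  have hkpos : (0 : ℝ) < k := by linarith
  -- `k ≤ L1`
  have hkL1 : (k : ℝ) ≤ L1 := by
    have h5 : (1 : ℝ) ≤ C := by exact_mod_cast hC
    have h6 : logRatio R ≤ L1 := by
      rw [hXeq]
      apply div_le_self hL1pos.le
      linarith
    nlinarith
  have hlogk : Real.log k ≤ L2 := Real.log_le_log hkpos hkL1
  have hlogk0 : 0 ≤ Real.log k := Real.log_nonneg hk1
  have hmain : (C : ℝ) * k * Real.log k ≤ L1 := by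
    calc (C : ℝ) * k * Real.log k ≤ logRatio R * L2 :=
          mul_le_mul hCk hlogk hlogk0 hXnn
      _ = L1 := by
          rw [hXeq]
          field_simp
  calc (k : ℝ) ^ (C * k) = Real.exp (Real.log k) ^ (C * k) := by rw [Real.exp_log hkpos]
    _ = Real.exp (((C * k : ℕ) : ℝ) * Real.log k) := (Real.exp_nat_mul _ _).symm
    _ ≤ Real.exp L1 := by
        apply Real.exp_le_exp.mpr
        push_cast
        exact hmain
    _ = R := Real.exp_log hRpos

/-- A finite box of Gaussian primes. -/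
noncomputable def boxGP (T : ℕ) : Finset GP := by
  classical
  exact ((Icc (-(T : ℤ)) T ×ˢ Icc (-(T : ℤ)) T).image
    (fun w : ℤ × ℤ => (⟨w.1, w.2⟩ : GaussianInt))).subtype Irreducible

lemma mem_boxGP (T : ℕ) (z : GP) : z ∈ boxGP T ↔ |z.1.re| ≤ T ∧ |z.1.im| ≤ T := by
  classical
  unfold boxGP
  rw [Finset.mem_subtype, Finset.mem_image]
  constructor
  · rintro ⟨w, hw, hwz⟩
    rw [Finset.mem_product, Finset.mem_Icc, Finset.mem_Icc] at hw
    rw [← hwz]
    exact ⟨abs_le.mpr hw.1, abs_le.mpr hw.2⟩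
  · rintro ⟨h1, h2⟩
    refine ⟨(z.1.re, z.1.im), ?_, ?_⟩
    · rw [Finset.mem_product, Finset.mem_Icc, Finset.mem_Icc]
      exact ⟨abs_le.mp h1, abs_le.mp h2⟩
    · apply Zsqrtd.ext <;> rfl

lemma card_boxGP_le (T : ℕ) : (boxGP T).card ≤ (2 * T + 1) ^ 2 := by
  classical
  unfold boxGP
  rw [Finset.card_subtype]
  have h1 := Finset.card_filter_le ((Icc (-(T : ℤ)) T ×ˢ Icc (-(T : ℤ)) T).image
    (fun w : ℤ × ℤ => (⟨w.1, w.2⟩ : GaussianInt))) Irreducible
  have h2 := Finset.card_image_le (s := Icc (-(T : ℤ)) T ×ˢ Icc (-(T : ℤ)) T)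
    (f := fun w : ℤ × ℤ => (⟨w.1, w.2⟩ : GaussianInt))
  have h3 : (Icc (-(T : ℤ)) T ×ˢ Icc (-(T : ℤ)) T).card = (2 * T + 1) ^ 2 := by
    rw [Finset.card_product, Int.card_Icc]
    have : ((T : ℤ) + 1 - (-(T : ℤ))).toNat = 2 * T + 1 := by omega
    rw [this]
    ring
  omega

lemma mem_boxGP_of_nrm (T : ℕ) (z : GP) (h : nrm z ≤ (T : ℤ) ^ 2) : z ∈ boxGP T := by
  rw [mem_boxGP]
  unfold nrm at h
  constructor
  · exact abs_le_of_sq_le_sq (by nlinarith [sq_nonneg z.1.im]) (by positivity)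
  · exact abs_le_of_sq_le_sq (by nlinarith [sq_nonneg z.1.re]) (by positivity)


/-- The bound for starting points of long simple paths in a disc. -/
lemma paths_bound {D : ℝ} (k R C k₀ : ℕ) (hk : k₀ ≤ k) (hR1 : 1 ≤ R) (hkR : k ^ (C * k) ≤ R)
    (hgc : ∀ k : ℕ, k₀ ≤ k → ∀ R T : ℕ, k ^ (C * k) ≤ R →
      k ^ (C * k) ≤ 2 * T + 1 → ∀ U : Finset GP,
      (∀ z ∈ U, |z.1.re| ≤ T ∧ |z.1.im| ≤ T ∧ (R : ℤ) ≤ nrm z ∧ IsLongStart D k z) →
      (U.card : ℝ) ≤ 3 * ((2 * T + 1 : ℕ) : ℝ) ^ 2 * Real.exp (-(2 * ((k : ℝ) + 1))))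
    (F : Finset GP) (hF : ∀ z ∈ F, nrm z ≤ (R : ℤ) ^ 2 ∧ IsLongStart D k z) :
    (F.card : ℝ) ≤ 27 * (R : ℝ) ^ 2 * Real.exp (-(2 * ((k : ℝ) + 1))) + 9 * R := by
  classical
  have hsplit := Finset.card_filter_add_card_filter_not (s := F) (fun z => (R : ℤ) ≤ nrm z)
  have hRreal : (1 : ℝ) ≤ R := by exact_mod_cast hR1
  -- large norm part
  have h1 : (((F.filter (fun z => (R : ℤ) ≤ nrm z)).card : ℕ) : ℝ) ≤
      27 * (R : ℝ) ^ 2 * Real.exp (-(2 * ((k : ℝ) + 1))) := by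
    have h2 := hgc k hk R R hkR (by omega) (F.filter (fun z => (R : ℤ) ≤ nrm z)) (by
      intro z hz
      have hz' := Finset.mem_filter.mp hz
      obtain ⟨a, b⟩ := hF z hz'.1
      have hbox := (mem_boxGP R z).mp (mem_boxGP_of_nrm R z a)
      exact ⟨hbox.1, hbox.2, hz'.2, b⟩)
    refine h2.trans ?_
    have h3 : ((2 * R + 1 : ℕ) : ℝ) ≤ 3 * R := by
      push_cast
      linarith
    have h4 : ((2 * R + 1 : ℕ) : ℝ) ^ 2 ≤ (3 * (R : ℝ)) ^ 2 := pow_le_pow_left₀ (by positivity) h3 2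
    have h5 := Real.exp_pos (-(2 * ((k : ℝ) + 1)))
    nlinarith
  -- small norm part
  have h2 : (((F.filter (fun z => ¬ (R : ℤ) ≤ nrm z)).card : ℕ) : ℝ) ≤ 9 * R := by
    set s := Nat.sqrt R with hs
    have hs1 : 1 ≤ s := by
      rw [hs]
      exact Nat.le_sqrt.mpr (by omega)
    have hs2 : s * s ≤ R := Nat.sqrt_le R
    have hsub : F.filter (fun z => ¬ (R : ℤ) ≤ nrm z) ⊆ boxGP s := by
      intro z hz
      have hz' := (Finset.mem_filter.mp hz).2
      push Not at hz'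
      rw [mem_boxGP]
      have h0 : nrm z < (R : ℤ) := hz'
      unfold nrm at h0
      have hlt : ∀ x : ℤ, x ^ 2 < (R : ℤ) → |x| ≤ s := by
        intro x hx
        have h3 : x.natAbs * x.natAbs ≤ R := by
          have h4 : ((x.natAbs * x.natAbs : ℕ) : ℤ) = x ^ 2 := by
            push_cast
            rw [abs_mul_abs_self]
            ring
          have h5 : ((x.natAbs * x.natAbs : ℕ) : ℤ) ≤ (R : ℤ) := by
            rw [h4]
            exact hx.le
          exact_mod_cast h5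
        have h6 : x.natAbs ≤ s := Nat.le_sqrt.mpr h3
        rw [Int.abs_eq_natAbs]
        exact_mod_cast h6
      exact ⟨hlt _ (by nlinarith [sq_nonneg z.1.im]), hlt _ (by nlinarith [sq_nonneg z.1.re])⟩
    have h3 := (Finset.card_le_card hsub).trans (card_boxGP_le s)
    have h4 : (2 * s + 1) ^ 2 ≤ 9 * R := by nlinarith
    exact_mod_cast h3.trans h4
  have hsum : (F.card : ℝ) = (((F.filter (fun z => (R : ℤ) ≤ nrm z)).card : ℕ) : ℝ) +
      (((F.filter (fun z => ¬ (R : ℤ) ≤ nrm z)).card : ℕ) : ℝ) := by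
    rw [← hsplit]
    push_cast
    rfl
  rw [hsum]
  linarith

/-- A walk from inside to far outside crosses each ring at a starting point of a long path. -/
lemma walk_hits_ring {D : ℝ} (hD : 0 < D) (Δ : ℕ) (hΔ : D ≤ Δ) (k R i : ℕ)
    (hi : R + (i + 1) * (Δ + 1) ≤ 2 * R) (hkΔ : k * Δ ≤ 2 * R) (u v : GP)
    (hu : nrm u ≤ (R : ℤ) ^ 2) (hv : (4 * (R : ℤ)) ^ 2 ≤ nrm v) (p : (moatGraph D).Walk u v) :
    ∃ x ∈ p.support, ((R : ℤ) + i * (Δ + 1)) ^ 2 ≤ nrm x ∧
      nrm x < ((R : ℤ) + (i + 1) * (Δ + 1)) ^ 2 ∧ IsLongStart D k x := by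
  classical
  set q := p.bypass with hq
  have hqpath : q.IsPath := p.bypass_isPath
  obtain ⟨A, hA⟩ : ∃ A : ℤ, A = (R : ℤ) + i * (Δ + 1) := ⟨_, rfl⟩
  have hA0 : 0 ≤ A := by
    rw [hA]
    positivity
  have hiZ : (R : ℤ) + (i + 1) * (Δ + 1) ≤ 2 * R := by exact_mod_cast hi
  have hA2R : A + (Δ + 1) ≤ 2 * R := by
    rw [hA]
    linarith
  have hR0 : (0 : ℤ) ≤ R := by positivity
  have hΔ0 : (0 : ℤ) ≤ Δ := by positivity
  have hupper : (R : ℤ) + (i + 1) * (Δ + 1) = A + (Δ + 1) := by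
    rw [hA]
    ring
  rw [hupper, ← hA]
  have hex : ∃ j, j ≤ q.length ∧ A ^ 2 ≤ nrm (q.getVert j) := by
    refine ⟨q.length, le_rfl, ?_⟩
    rw [SimpleGraph.Walk.getVert_length]
    refine le_trans ?_ hv
    apply pow_le_pow_left₀ hA0
    linarith
  obtain ⟨hj₀le, hj₀A⟩ := Nat.find_spec hex
  have hmin := fun m (hm : m < Nat.find hex) => Nat.find_min hex hm
  set j₀ := Nat.find hex with hj₀
  have hup : nrm (q.getVert j₀) < (A + (Δ + 1)) ^ 2 := by
    cases hc : j₀ with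
    | zero =>
      rw [SimpleGraph.Walk.getVert_zero]
      refine lt_of_le_of_lt hu ?_
      apply pow_lt_pow_left₀ _ hR0 (by norm_num)
      have : (R : ℤ) ≤ A := by
        rw [hA]
        have : (0 : ℤ) ≤ (i : ℤ) * (Δ + 1) := by positivity
        linarith
      linarith
    | succ m =>
      have hm : m < j₀ := by omega
      have h1 := hmin m hm
      have hmle : m ≤ q.length := by omega
      have h2 : nrm (q.getVert m) < A ^ 2 := by
        by_contra hcon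
        exact h1 ⟨hmle, not_lt.mp hcon⟩
      have hadj : (moatGraph D).Adj (q.getVert m) (q.getVert (m + 1)) :=
        q.adj_getVert_succ (by omega)
      have h3 := nrm_step hD hΔ hadj hA0 h2
      refine lt_of_lt_of_le h3 ?_
      apply pow_le_pow_left₀ (by positivity)
      linarith
  have hremain : j₀ + k ≤ q.length := by
    by_contra hcon
    push Not at hcon
    obtain ⟨M, hM⟩ : ∃ M, M = q.length - j₀ := ⟨_, rfl⟩
    have hMk : M < k := by omega
    have hjM : j₀ + M = q.length := by omega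
    have h2R : nrm (q.getVert j₀) < (2 * (R : ℤ)) ^ 2 := by
      refine lt_of_lt_of_le hup ?_
      apply pow_le_pow_left₀ (by positivity) hA2R
    have h4 := nrm_walk hD hΔ q j₀ M (by omega) (A := 2 * (R : ℤ)) (by positivity) h2R
    rw [hjM, SimpleGraph.Walk.getVert_length] at h4
    have h5 : (4 * (R : ℤ)) ^ 2 < (2 * (R : ℤ) + M * Δ) ^ 2 := lt_of_le_of_lt hv h4
    have h6 : 4 * (R : ℤ) < 2 * (R : ℤ) + M * Δ :=
      lt_of_pow_lt_pow_left₀ 2 (by positivity) h5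
    have h7 : (M : ℤ) * Δ ≤ k * Δ := by
      apply mul_le_mul_of_nonneg_right _ hΔ0
      exact_mod_cast hMk.le
    have h8 : (k : ℤ) * Δ ≤ 2 * R := by exact_mod_cast hkΔ
    linarith
  refine ⟨q.getVert j₀, ?_, hj₀A, hup, isLongStart_of_path q hqpath j₀ k hremain⟩
  exact p.support_bypass_subset_support (q.getVert_mem_support j₀)

/-- The almost moat. -/
lemma moat_exists {D : ℝ} (hD : 0 < D) (Δ : ℕ) (hΔ : D ≤ Δ) (k R : ℕ)
    (hR : Δ + 1 ≤ R) (hkΔ : k * Δ ≤ 2 * R) (B : ℝ)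
    (hU : ∀ U : Finset GP, (∀ z ∈ U, |z.1.re| ≤ ((2 * R : ℕ) : ℤ) ∧ |z.1.im| ≤ ((2 * R : ℕ) : ℤ) ∧
      (R : ℤ) ≤ nrm z ∧ IsLongStart D k z) → (U.card : ℝ) ≤ B) :
    ∃ F : Finset GP, ((R / (Δ + 1) : ℕ) : ℝ) * (F.card : ℝ) ≤ B ∧
      (∀ x ∈ F, (R : ℤ) ^ 2 ≤ nrm x ∧ nrm x < (2 * (R : ℤ)) ^ 2) ∧
      ∀ u v : GP, nrm u ≤ (R : ℤ) ^ 2 → (4 * (R : ℤ)) ^ 2 ≤ nrm v →
        ∀ p : (moatGraph D).Walk u v, ∃ x ∈ p.support, x ∈ F := by
  classical
  obtain ⟨w, hw⟩ : ∃ w : ℕ, w = Δ + 1 := ⟨_, rfl⟩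
  obtain ⟨n, hn⟩ : ∃ n : ℕ, n = R / (Δ + 1) := ⟨_, rfl⟩
  rw [← hn]
  have hn1 : 1 ≤ n := by
    rw [hn]
    exact Nat.div_pos hR (by omega)
  have hnw : n * (Δ + 1) ≤ R := by
    rw [hn]
    exact Nat.div_mul_le_self R (Δ + 1)
  have hR1 : 1 ≤ R := by omega
  obtain ⟨U, hUdef⟩ : ∃ U : Finset GP, U = (boxGP (2 * R)).filter (fun z =>
      (R : ℤ) ^ 2 ≤ nrm z ∧ nrm z < (2 * (R : ℤ)) ^ 2 ∧ IsLongStart D k z) := ⟨_, rfl⟩
  let ringF : ℕ → Finset GP := fun i => U.filter (fun z =>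
    ((R : ℤ) + i * (Δ + 1)) ^ 2 ≤ nrm z ∧ nrm z < ((R : ℤ) + (i + 1) * (Δ + 1)) ^ 2)
  have hUcard : (U.card : ℝ) ≤ B := by
    apply hU
    intro z hz
    rw [hUdef] at hz
    have hz' := Finset.mem_filter.mp hz
    have hb := (mem_boxGP _ z).mp hz'.1
    refine ⟨hb.1, hb.2, ?_, hz'.2.2.2⟩
    have h1 : (R : ℤ) ≤ (R : ℤ) ^ 2 := by
      have : (1 : ℤ) ≤ R := by exact_mod_cast hR1
      nlinarith
    linarith [hz'.2.1]
  have hdisj : ∀ a ∈ range n, ∀ b ∈ range n, a ≠ b → Disjoint (ringF a) (ringF b) := by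
    have hlt : ∀ a b : ℕ, a < b → Disjoint (ringF a) (ringF b) := by
      intro a b hab
      rw [Finset.disjoint_left]
      intro x hxa hxb
      have h1 := (Finset.mem_filter.mp hxa).2.2
      have h2 := (Finset.mem_filter.mp hxb).2.1
      have h3 : ((R : ℤ) + (a + 1) * (Δ + 1)) ^ 2 ≤ ((R : ℤ) + b * (Δ + 1)) ^ 2 := by
        apply pow_le_pow_left₀ (by positivity)
        have : ((a : ℤ) + 1) ≤ b := by exact_mod_cast hab
        have h4 : ((a : ℤ) + 1) * (Δ + 1) ≤ b * (Δ + 1) :=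
          mul_le_mul_of_nonneg_right this (by positivity)
        linarith
      linarith
    intro a _ b _ hab
    rcases lt_or_gt_of_ne hab with h | h
    · exact hlt a b h
    · exact (hlt b a h).symm
  have hsum : ∑ i ∈ range n, (ringF i).card ≤ U.card := by
    rw [← Finset.card_biUnion hdisj]
    apply Finset.card_le_card
    intro x hx
    obtain ⟨i, _, hi⟩ := Finset.mem_biUnion.mp hx
    exact (Finset.mem_filter.mp hi).1
  have hne : (range n).Nonempty := ⟨0, Finset.mem_range.mpr (by omega)⟩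
  obtain ⟨i₀, hi₀, hmin⟩ := Finset.exists_min_image (range n) (fun i => (ringF i).card) hne
  have hi₀' := Finset.mem_range.mp hi₀
  refine ⟨ringF i₀, ?_, ?_, ?_⟩
  · have h1 : n * (ringF i₀).card ≤ ∑ i ∈ range n, (ringF i).card := by
      have := Finset.card_nsmul_le_sum (range n) (fun i => (ringF i).card) (ringF i₀).card hmin
      simpa using this
    have h2 : ((n * (ringF i₀).card : ℕ) : ℝ) ≤ (U.card : ℝ) := by
      exact_mod_cast h1.trans hsum
    push_cast at h2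
    exact h2.trans hUcard
  · intro x hx
    have hxU := (Finset.mem_filter.mp hx).1
    rw [hUdef] at hxU
    have := (Finset.mem_filter.mp hxU).2
    exact ⟨this.1, this.2.1⟩
  · intro u v hu hv p
    have hi : R + (i₀ + 1) * (Δ + 1) ≤ 2 * R := by
      have : (i₀ + 1) * (Δ + 1) ≤ n * (Δ + 1) := Nat.mul_le_mul_right _ (by omega)
      omega
    obtain ⟨x, hxp, h1, h2, h3⟩ := walk_hits_ring hD Δ hΔ k R i₀ hi hkΔ u v hu hv p
    refine ⟨x, hxp, ?_⟩
    have hiZ : (R : ℤ) + (i₀ + 1) * (Δ + 1) ≤ 2 * R := by exact_mod_cast hi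
    have hR0 : (0 : ℤ) ≤ R := by positivity
    have hlow : (R : ℤ) ^ 2 ≤ nrm x := by
      refine le_trans ?_ h1
      apply pow_le_pow_left₀ hR0
      have : (0 : ℤ) ≤ (i₀ : ℤ) * (Δ + 1) := by positivity
      linarith
    have hupp : nrm x < (2 * (R : ℤ)) ^ 2 := by
      refine lt_of_lt_of_le h2 ?_
      apply pow_le_pow_left₀ (by positivity) hiZ
    refine Finset.mem_filter.mpr ⟨?_, h1, h2⟩
    rw [hUdef]
    refine Finset.mem_filter.mpr ⟨?_, hlow, hupp, h3⟩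
    apply mem_boxGP_of_nrm
    push_cast
    exact hupp.le

/-- An infinite connected component contains long simple paths from each of its vertices. -/
lemma long_of_infinite {D : ℝ} (hD : 0 < D) (Δ : ℕ) (hΔ : D ≤ Δ) (z : GP)
    (hz : {w | (moatGraph D).Reachable z w}.Infinite) (m : ℕ) :
    ∃ (w : GP) (p : (moatGraph D).Walk z w), p.IsPath ∧ m ≤ p.length := by
  classical
  obtain ⟨T₀, hT₀⟩ : ∃ T₀ : ℕ, T₀ = z.1.re.natAbs + z.1.im.natAbs + 1 := ⟨_, rfl⟩
  obtain ⟨T, hT⟩ : ∃ T : ℕ, T = T₀ + m * Δ := ⟨_, rfl⟩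
  obtain ⟨w, hw1, hw2⟩ := hz.exists_notMem_finset (boxGP T)
  obtain ⟨p₀⟩ := hw1
  refine ⟨w, p₀.bypass, p₀.bypass_isPath, ?_⟩
  by_contra hcon
  push Not at hcon
  apply hw2
  apply mem_boxGP_of_nrm
  have hz0 : nrm z < (T₀ : ℤ) ^ 2 := by
    unfold nrm
    have e1 : z.1.re ^ 2 = (z.1.re.natAbs : ℤ) ^ 2 := (Int.natAbs_sq _).symm
    have e2 : z.1.im ^ 2 = (z.1.im.natAbs : ℤ) ^ 2 := (Int.natAbs_sq _).symm
    rw [e1, e2, hT₀]
    push_cast
    nlinarith [abs_nonneg z.1.re, abs_nonneg z.1.im, mul_nonneg (abs_nonneg z.1.re) (abs_nonneg z.1.im)]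
  have h1 := nrm_walk hD hΔ p₀.bypass 0 p₀.bypass.length (by omega) (A := (T₀ : ℤ)) (by positivity)
    (by rw [SimpleGraph.Walk.getVert_zero]; exact hz0)
  rw [zero_add, SimpleGraph.Walk.getVert_length] at h1
  refine h1.le.trans ?_
  apply pow_le_pow_left₀ (by positivity)
  rw [hT]
  push_cast
  have : (p₀.bypass.length : ℤ) * Δ ≤ m * Δ := by
    apply mul_le_mul_of_nonneg_right _ (by positivity)
    exact_mod_cast hcon.le
  linarith


/-- The analytic absorption of constants, first form. -/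
lemma absorb_disc (R : ℝ) (a E2 : ℝ) (hR : 1 ≤ R) (hE2 : E2 ≤ Real.exp (-(2 * a)))
    (hea : 54 ≤ Real.exp a) (hR2 : Real.exp (2 * a) ≤ R) :
    27 * R ^ 2 * E2 + 9 * R ≤ R ^ 2 * Real.exp (-a) := by
  have hExp : Real.exp (-(2 * a)) = Real.exp (-a) * Real.exp (-a) := by
    rw [← Real.exp_add]
    congr 1
    ring
  have hinv : Real.exp a * Real.exp (-a) = 1 := by
    rw [← Real.exp_add]
    simp
  set E := Real.exp (-a) with hE
  have hE0 : 0 < E := Real.exp_pos _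
  have hE54 : 54 * E ≤ 1 := by nlinarith
  have h1 : 27 * R ^ 2 * E2 ≤ (1 / 2) * (R ^ 2 * E) := by
    have h2 : E2 ≤ E * E := by rw [← hExp]; exact hE2
    have h3 : E * E ≤ E / 54 := by nlinarith
    have hR20 : 0 ≤ R ^ 2 := by positivity
    calc 27 * R ^ 2 * E2 ≤ 27 * R ^ 2 * (E / 54) := by
          apply mul_le_mul_of_nonneg_left (h2.trans h3) (by positivity)
      _ = (1 / 2) * (R ^ 2 * E) := by ring
  have h2 : 18 ≤ R * E := by
    have h3 : Real.exp (2 * a) = Real.exp a * Real.exp a := by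
      rw [← Real.exp_add]
      congr 1
      ring
    rw [h3] at hR2
    have h4 : Real.exp a ≤ R * E := by
      calc Real.exp a = Real.exp a * Real.exp a * E := by
            rw [mul_assoc, hinv, mul_one]
        _ ≤ R * E := mul_le_mul_of_nonneg_right hR2 hE0.le
    linarith
  have hR0 : 0 < R := by linarith
  have h3 : 9 * R ≤ (1 / 2) * (R ^ 2 * E) := by nlinarith
  linarith

/-- The analytic absorption of constants, second form. -/
lemma absorb_moat (R n w F a E2 : ℝ) (hR : 1 ≤ R) (hw : 0 < w) (hn : R ≤ n * (2 * w))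
    (hF0 : 0 ≤ F) (hnF : n * F ≤ 3 * (4 * R + 1) ^ 2 * E2) (hE20 : 0 ≤ E2)
    (hE2 : E2 ≤ Real.exp (-(2 * a)))
    (hea : 150 * w ≤ Real.exp a) :
    F ≤ R * Real.exp (-a) := by
  have hExp : Real.exp (-(2 * a)) = Real.exp (-a) * Real.exp (-a) := by
    rw [← Real.exp_add]
    congr 1
    ring
  have hinv : Real.exp a * Real.exp (-a) = 1 := by
    rw [← Real.exp_add]
    simp
  set E := Real.exp (-a) with hE
  have hE0 : 0 < E := Real.exp_pos _
  have hE150 : 150 * w * E ≤ 1 := by nlinarith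
  have hR0 : 0 < R := by linarith
  have h1 : (4 * R + 1) ^ 2 ≤ 25 * R ^ 2 := by nlinarith
  have h2 : n * F ≤ 75 * R ^ 2 * (E * E) := by
    have h3 : E2 ≤ E * E := by rw [← hExp]; exact hE2
    calc n * F ≤ 3 * (4 * R + 1) ^ 2 * E2 := hnF
      _ ≤ 3 * (25 * R ^ 2) * (E * E) := by
          exact mul_le_mul (by linarith) h3 hE20 (by positivity)
      _ = 75 * R ^ 2 * (E * E) := by ring
  have h3 : R * F ≤ n * (2 * w) * F := mul_le_mul_of_nonneg_right hn hF0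
  have h4 : R * F ≤ 150 * w * R ^ 2 * (E * E) := by
    calc R * F ≤ n * (2 * w) * F := h3
      _ = 2 * w * (n * F) := by ring
      _ ≤ 2 * w * (75 * R ^ 2 * (E * E)) := mul_le_mul_of_nonneg_left h2 (by positivity)
      _ = 150 * w * R ^ 2 * (E * E) := by ring
  have h5 : R * F ≤ R * (R * E) := by
    calc R * F ≤ 150 * w * R ^ 2 * (E * E) := h4
      _ = (150 * w * E) * (R * (R * E)) := by ring
      _ ≤ 1 * (R * (R * E)) := mul_le_mul_of_nonneg_right hE150 (by positivity)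
      _ = R * (R * E) := one_mul _
  exact le_of_mul_le_mul_left h5 hR0

/-- The main theorem. -/
theorem main_thm (D : ℝ) (hD : 0 < D) :
    ∃ c : ℝ, 0 < c ∧ ∃ R₀ : ℕ, ∀ R : ℕ, R₀ ≤ R →
      (∀ F : Finset {z : GaussianInt // Irreducible z},
        (∀ z ∈ F, z.1.re ^ 2 + z.1.im ^ 2 ≤ (R : ℤ) ^ 2 ∧
          ∃ (w : {z : GaussianInt // Irreducible z}) (p : (moatGraph D).Walk z w),
            p.IsPath ∧ c * Real.log R / Real.log (Real.log R) ≤ p.length) →
        (F.card : ℝ) ≤ (R : ℝ) ^ 2 * Real.exp (-(c * Real.log R / Real.log (Real.log R)))) ∧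
      (∀ F : Finset {z : GaussianInt // Irreducible z},
        (∀ z ∈ F, z.1.re ^ 2 + z.1.im ^ 2 ≤ (R : ℤ) ^ 2 ∧
          {w | (moatGraph D).Reachable z w}.Infinite) →
        (F.card : ℝ) ≤ (R : ℝ) ^ 2 * Real.exp (-(c * Real.log R / Real.log (Real.log R)))) ∧
      (∃ F : Finset {z : GaussianInt // Irreducible z},
        (F.card : ℝ) ≤ (R : ℝ) * Real.exp (-(c * Real.log R / Real.log (Real.log R))) ∧
        (∀ x ∈ F, (R : ℤ) ^ 2 ≤ x.1.re ^ 2 + x.1.im ^ 2 ∧ x.1.re ^ 2 + x.1.im ^ 2 < (2 * (R : ℤ)) ^ 2) ∧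
        ∀ u v : {z : GaussianInt // Irreducible z},
          u.1.re ^ 2 + u.1.im ^ 2 ≤ (R : ℤ) ^ 2 → (4 * (R : ℤ)) ^ 2 ≤ v.1.re ^ 2 + v.1.im ^ 2 →
          ∀ p : (moatGraph D).Walk u v, ∃ x ∈ p.support, x ∈ F) := by
  obtain ⟨Δ, hΔdef⟩ : ∃ Δ : ℕ, Δ = ⌈D⌉₊ := ⟨_, rfl⟩
  have hΔ : D ≤ Δ := by
    rw [hΔdef]
    exact Nat.le_ceil D
  have hΔ1 : 1 ≤ Δ := by
    rw [hΔdef]
    exact Nat.ceil_pos.mpr hD
  obtain ⟨C, k₀, hC, hk₀, hgc⟩ := graph_count hD Δ hΔ1 hΔ
  have hCpos : (0 : ℝ) < C := by exact_mod_cast hC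
  obtain ⟨w, hw⟩ : ∃ w : ℝ, w = (Δ : ℝ) + 1 := ⟨_, rfl⟩
  have hw1 : 1 ≤ w := by
    rw [hw]
    have : (0 : ℝ) ≤ Δ := Nat.cast_nonneg Δ
    linarith
  obtain ⟨G, hG⟩ : ∃ G : ℝ, G = ((k₀ + Δ + 3 : ℕ) : ℝ) + Real.log (150 * w) := ⟨_, rfl⟩
  have hlogw : 0 ≤ Real.log (150 * w) := Real.log_nonneg (by linarith)
  obtain ⟨R₁, hR₁3, hlarge⟩ := large_R C hC G
  refine ⟨1 / C, by positivity, R₁ + Δ + 1, fun R hR => ?_⟩
  obtain ⟨hGR, hL2, hpow⟩ := hlarge R (by omega)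
  -- abbreviations
  obtain ⟨a, ha⟩ : ∃ a : ℝ, a = logRatio R / C := ⟨_, rfl⟩
  have haform : (1 / (C : ℝ)) * Real.log R / Real.log (Real.log R) = a := by
    rw [ha]
    unfold logRatio
    ring
  rw [haform]
  rw [← ha] at hGR
  have hak : ⌊logRatio R / C⌋₊ = ⌊a⌋₊ := by rw [ha]
  rw [hak] at hpow
  obtain ⟨k, hk⟩ : ∃ k : ℕ, k = ⌊a⌋₊ := ⟨_, rfl⟩
  rw [← hk] at hpow
  have ha1 : ((k₀ + Δ + 3 : ℕ) : ℝ) ≤ a := by linarith
  have ha2 : Real.log (150 * w) ≤ a := by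
    have : (0 : ℝ) ≤ ((k₀ + Δ + 3 : ℕ) : ℝ) := Nat.cast_nonneg _
    linarith
  have ha0 : 0 ≤ a := by
    have : (0 : ℝ) ≤ ((k₀ + Δ + 3 : ℕ) : ℝ) := Nat.cast_nonneg _
    linarith
  have hka : (k₀ + Δ + 3) ≤ k := by
    rw [hk]
    exact Nat.le_floor ha1
  have hkle : (k : ℝ) ≤ a := by
    rw [hk]
    exact Nat.floor_le ha0
  have hak1 : a ≤ (k : ℝ) + 1 := by
    rw [hk]
    exact (Nat.lt_floor_add_one a).le
  have hkk0 : k₀ ≤ k := by omega
  have hR3 : 3 ≤ R := by omega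
  have hRreal : (1 : ℝ) ≤ R := by
    have : (3 : ℝ) ≤ R := by exact_mod_cast hR3
    linarith
  have hRpos : (0 : ℝ) < R := by linarith
  have hkpowR : k ^ (C * k) ≤ R := by exact_mod_cast hpow
  have hk2 : 2 ≤ k := by omega
  have hkΔ : k * Δ ≤ 2 * R := by
    have h1 : Δ ≤ k := by omega
    have h2 : k * Δ ≤ k * k := Nat.mul_le_mul_left k h1
    have h3 : k ^ 2 ≤ k ^ (C * k) := by
      apply Nat.pow_le_pow_right (by omega)
      have : 1 * k ≤ C * k := Nat.mul_le_mul_right k hC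
      omega
    have h4 : k * k = k ^ 2 := (sq k).symm
    omega
  have hE2 : Real.exp (-(2 * ((k : ℝ) + 1))) ≤ Real.exp (-(2 * a)) := by
    apply Real.exp_le_exp.mpr
    linarith
  have hea : 150 * w ≤ Real.exp a := by
    have h1 : (0 : ℝ) < 150 * w := by linarith
    calc 150 * w = Real.exp (Real.log (150 * w)) := (Real.exp_log h1).symm
      _ ≤ Real.exp a := Real.exp_le_exp.mpr ha2
  have hea54 : 54 ≤ Real.exp a := by linarith
  -- the bound `exp (2 a) ≤ R`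
  have hR2 : Real.exp (2 * a) ≤ R := by
    have hR3' : (3 : ℝ) ≤ R := by exact_mod_cast hR3
    have hL1pos : 0 < Real.log R := Real.log_pos (by linarith)
    have hC1 : (1 : ℝ) ≤ C := by exact_mod_cast hC
    have hXle : logRatio R ≤ Real.log R / 2 := by
      unfold logRatio
      apply div_le_div_of_nonneg_left hL1pos.le (by norm_num) hL2
    have hXnn : 0 ≤ logRatio R := by
      unfold logRatio
      have : 0 < Real.log (Real.log R) := by linarith
      positivity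
    have haX : a ≤ logRatio R := by
      rw [ha]
      exact div_le_self hXnn hC1
    calc Real.exp (2 * a) ≤ Real.exp (Real.log R) := by
          apply Real.exp_le_exp.mpr
          linarith
      _ = R := Real.exp_log hRpos
  have hpart1 : ∀ F : Finset GP, (∀ z ∈ F, nrm z ≤ (R : ℤ) ^ 2 ∧
      ∃ (w : GP) (p : (moatGraph D).Walk z w), p.IsPath ∧ a ≤ p.length) →
      (F.card : ℝ) ≤ (R : ℝ) ^ 2 * Real.exp (-a) := by
    intro F hF
    have h1 := paths_bound (D := D) k R C k₀ hkk0 (by omega) hkpowR hgc F (by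
      intro z hz
      obtain ⟨h2, w', p, hp, hlen⟩ := hF z hz
      refine ⟨h2, ?_⟩
      have hlenk : k ≤ p.length := by
        have : (k : ℝ) ≤ (p.length : ℝ) := hkle.trans hlen
        exact_mod_cast this
      have := isLongStart_of_path p hp 0 k (by omega)
      simpa using this)
    exact h1.trans (absorb_disc (R : ℝ) a _ hRreal hE2 hea54 hR2)
  refine ⟨hpart1, ?_, ?_⟩
  · intro F hF
    apply hpart1 F
    intro z hz
    obtain ⟨h1, h2⟩ := hF z hz
    refine ⟨h1, ?_⟩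
    obtain ⟨w', p, hp, hlen⟩ := long_of_infinite hD Δ hΔ z h2 ⌈a⌉₊
    refine ⟨w', p, hp, ?_⟩
    calc a ≤ (⌈a⌉₊ : ℝ) := Nat.le_ceil a
      _ ≤ p.length := by exact_mod_cast hlen
  · -- the almost moat
    obtain ⟨F, hF1, hF2, hF3⟩ := moat_exists hD Δ hΔ k R (by omega) hkΔ
      (3 * ((2 * (2 * R) + 1 : ℕ) : ℝ) ^ 2 * Real.exp (-(2 * ((k : ℝ) + 1)))) (fun U hU =>
        hgc k hkk0 R (2 * R) hkpowR (by omega) U hU)
    refine ⟨F, ?_, hF2, hF3⟩
    refine absorb_moat (R : ℝ) ((R / (Δ + 1) : ℕ) : ℝ) w (F.card : ℝ) a _ hRreal (by linarith) ?_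
      (Nat.cast_nonneg _) ?_ (Real.exp_pos _).le hE2 hea
    · -- the number of rings
      rw [hw]
      have h1 : R < (R / (Δ + 1)) * (Δ + 1) + (Δ + 1) := by
        have := Nat.lt_div_mul_add (a := R) (b := Δ + 1) (by omega)
        simpa using this
      have h2 : 1 ≤ R / (Δ + 1) := Nat.div_pos (by omega) (by omega)
      have h3 : R ≤ (R / (Δ + 1)) * (2 * (Δ + 1)) := by nlinarith
      exact_mod_cast h3
    · refine hF1.trans (le_of_eq ?_)
      push_cast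
      ring

end Vale.Agent.Lib.P015
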